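import Vale.Agent.P166.Pressure

/-!
Averages over nested stabilisers: a martingale decomposition of the variance.
-/

namespace Vale.Agent.P166

open MeasureTheory Matrix

variable {N : ℕ}

instance : SecondCountableTopology (OG N) := by
  haveI : SecondCountableTopology (Matrix (Fin N) (Fin N) ℝ) :=
    inferInstanceAs (SecondCountableTopology (Fin N → Fin N → ℝ))
  exact TopologicalSpace.Subtype.secondCountableTopology _

instance (S : Finset (Fin N)) : SecondCountableTopology (fixS S) :=
  TopologicalSpace.Subtype.secondCountableTopology _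

lemma swapC {A B : Type} [TopologicalSpace A] [CompactSpace A] [SecondCountableTopology A]
    [MeasurableSpace A] [BorelSpace A] [TopologicalSpace B] [CompactSpace B]
    [SecondCountableTopology B] [MeasurableSpace B] [BorelSpace B]
    {μ : Measure A} [IsProbabilityMeasure μ] {ν : Measure B} [IsProbabilityMeasure ν]
    {f : A → B → ℝ} (hf : Continuous (Function.uncurry f)) :
    ∫ x, ∫ y, f x y ∂ν ∂μ = ∫ y, ∫ x, f x y ∂μ ∂ν :=
  integral_integral_swap (hf.integrable_of_hasCompactSupport (HasCompactSupport.of_compactSpace _))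

variable {S T : Finset (Fin N)} {f g : OG N → ℝ}

lemma continuous_mulU {f : OG N → ℝ} (hf : Continuous f) :
    Continuous (Function.uncurry fun (U : OG N) (V : fixS S) => f ((V : OG N) * U)) :=
  hf.comp ((continuous_subtype_val.comp continuous_snd).mul continuous_fst)

lemma continuous_avgS (hf : Continuous f) : Continuous (avgS S f) := by
  have := continuous_parametric_integral_of_continuous (μ := haarP (fixS S))
    (continuous_mulU (S := S) hf) isCompact_univ
  change Continuous fun U => ∫ V, f ((V : OG N) * U) ∂(haarP (fixS S))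
  simpa [setIntegral_univ] using this

lemma avgS_inv {W : OG N} (hW : W ∈ fixS S) (U : OG N) : avgS S f (W * U) = avgS S f U := by
  unfold avgS
  rw [← integral_mul_right_eq_self (μ := haarP (fixS S))
    (fun V : fixS S => f ((V : OG N) * U)) ⟨W, hW⟩]
  simp [mul_assoc]

lemma avgS_avgS (h : S ⊆ T) (hf : Continuous f) (U : OG N) :
    avgS T (avgS S f) U = avgS T f U := by
  unfold avgS
  have hc : Continuous (Function.uncurry fun (V : fixS T) (W : fixS S) =>
      f ((W : OG N) * ((V : OG N) * U))) :=
    hf.comp ((continuous_subtype_val.comp continuous_snd).mul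
      ((continuous_subtype_val.comp continuous_fst).mul continuous_const))
  rw [swapC hc]
  have hW : ∀ W : fixS S, ∫ V : fixS T, f ((W : OG N) * ((V : OG N) * U)) ∂(haarP (fixS T))
      = ∫ V : fixS T, f ((V : OG N) * U) ∂(haarP (fixS T)) := by
    intro W
    rw [← integral_mul_left_eq_self (μ := haarP (fixS T))
      (fun V : fixS T => f ((V : OG N) * U)) ⟨W, fixS_mono h W.2⟩]
    simp [mul_assoc]
  simp [hW]

lemma integral_avgS (hf : Continuous f) :
    ∫ U, avgS S f U ∂(haarP (OG N)) = ∫ U, f U ∂(haarP (OG N)) := by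
  unfold avgS
  rw [swapC (continuous_mulU hf)]
  simp [integral_mul_left_eq_self]

lemma integral_mul_avgS (hg : Continuous g) :
    ∫ U, g U * avgS T g U ∂(haarP (OG N)) = ∫ U, avgS T g U ^ 2 ∂(haarP (OG N)) := by
  rw [← integral_avgS (S := T) (hg.fun_mul (continuous_avgS hg))]
  refine integral_congr_ae (Filter.Eventually.of_forall fun U => ?_)
  calc avgS T (fun X => g X * avgS T g X) U
      = ∫ V, g ((V : OG N) * U) * avgS T g U ∂(haarP (fixS T)) :=
        integral_congr_ae (Filter.Eventually.of_forall fun V => by simp [avgS_inv V.2 U])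
    _ = avgS T g U ^ 2 := by rw [integral_mul_const, sq]; rfl

/-- The increment identity. -/
lemma increment (hg : Continuous g) :
    ∫ U, ∫ V : fixS T, (g ((V : OG N) * U) - g U) ^ 2 ∂(haarP (fixS T)) ∂(haarP (OG N))
      = 2 * (∫ U, g U ^ 2 ∂(haarP (OG N)) - ∫ U, avgS T g U ^ 2 ∂(haarP (OG N))) := by
  have hgV : ∀ U, Continuous fun V : fixS T => g ((V : OG N) * U) := fun U =>
    hg.comp (continuous_subtype_val.mul continuous_const)
  have e : ∀ U, ∫ V : fixS T, (g ((V : OG N) * U) - g U) ^ 2 ∂(haarP (fixS T))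
      = avgS T (fun X => g X ^ 2) U - 2 * (g U * avgS T g U) + g U ^ 2 := by
    intro U
    have : ∀ V : fixS T, (g ((V : OG N) * U) - g U) ^ 2
        = g ((V : OG N) * U) ^ 2 - 2 * g U * g ((V : OG N) * U) + g U ^ 2 := fun V => by ring
    simp only [this, avgS]
    rw [integral_add (((integrable_of_continuous ((hgV U).fun_pow 2)).sub'
      ((integrable_of_continuous (hgV U)).const_mul _))) (integrable_const _),
      integral_sub (integrable_of_continuous ((hgV U).fun_pow 2))
      ((integrable_of_continuous (hgV U)).const_mul _), integral_const_mul]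
    simp
    ring
  have i1 := integrable_of_continuous (continuous_avgS (S := T) (hg.fun_pow 2))
  have i2 := integrable_of_continuous (hg.fun_mul (continuous_avgS (S := T) hg))
  have i3 := integrable_of_continuous (hg.fun_pow 2)
  simp only [e]
  rw [integral_add (i1.sub' (i2.const_mul 2)) i3, integral_sub i1 (i2.const_mul 2),
    integral_const_mul, integral_avgS (hg.fun_pow 2), integral_mul_avgS hg]
  ring

/-- The coordinates from `k` on. -/
def Sk (k : ℕ) : Finset (Fin N) := Finset.univ.filter fun i => k ≤ i.val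

lemma mem_Sk {k : ℕ} {i : Fin N} : i ∈ Sk k ↔ k ≤ i.val := by simp [Sk]

lemma Sk_succ_subset (k : ℕ) : (Sk (k + 1) : Finset (Fin N)) ⊆ Sk k :=
  fun i hi => mem_Sk.2 (by have := mem_Sk.1 hi; omega)

lemma card_Sk (k : ℕ) : N - k ≤ (Sk k : Finset (Fin N)).card := by
  have h : (Finset.univ.filter fun i : Fin N => ¬ k ≤ i.val).card ≤ k := by
    have := Finset.card_le_card_of_injOn (s := Finset.univ.filter fun i : Fin N => ¬ k ≤ i.val)
      (t := Finset.range k) Fin.val (fun i hi => by simpa using hi) Fin.val_injective.injOn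
    simpa using this
  have := Finset.card_filter_add_card_filter_not (s := (Finset.univ : Finset (Fin N)))
    (fun i => k ≤ i.val)
  simp only [Finset.card_univ, Fintype.card_fin] at this
  unfold Sk
  omega

/-- The variance as a sum of increments. -/
lemma variance_eq (hf : Continuous f) {K : ℕ}
    (hK : ∀ W ∈ fixS (Sk K : Finset (Fin N)), ∀ U, f (W * U) = f U) :
    ∫ U, (f U - ∫ X, f X ∂(haarP (OG N))) ^ 2 ∂(haarP (OG N))
      = (∑ k ∈ Finset.range K, ∫ U, ∫ V : fixS (Sk k : Finset (Fin N)),
          (avgS (Sk (k + 1)) f ((V : OG N) * U) - avgS (Sk (k + 1)) f U) ^ 2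
            ∂(haarP (fixS (Sk k : Finset (Fin N)))) ∂(haarP (OG N))) / 2 := by
  set a : ℕ → ℝ := fun k => ∫ U, avgS (Sk k) f U ^ 2 ∂(haarP (OG N)) with ha
  have hstep : ∀ k, ∫ U, ∫ V : fixS (Sk k : Finset (Fin N)),
      (avgS (Sk (k + 1)) f ((V : OG N) * U) - avgS (Sk (k + 1)) f U) ^ 2
        ∂(haarP (fixS (Sk k : Finset (Fin N)))) ∂(haarP (OG N)) = 2 * (a (k + 1) - a k) := by
    intro k
    rw [increment (continuous_avgS hf)]
    simp only [ha, avgS_avgS (Sk_succ_subset k) hf]
  simp only [hstep, ← Finset.mul_sum, Finset.sum_range_sub a K]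
  have hlast : a K = ∫ U, f U ^ 2 ∂(haarP (OG N)) := by
    simp [ha, avgS, fun (V : fixS (Sk K : Finset (Fin N))) U => hK V V.2 U]
  set m := ∫ X, f X ∂(haarP (OG N)) with hm
  have hfirst : a 0 = m ^ 2 := by
    have hc : ∀ U : OG N, avgS (Sk 0) f U = avgS (Sk 0) f 1 := fun U => by
      have hU : U ∈ fixS (Sk 0 : Finset (Fin N)) :=
        mem_fixS.2 fun i hi => absurd (mem_Sk.2 (Nat.zero_le _)) hi
      simpa using avgS_inv (f := f) hU 1
    have h1 := integral_avgS (S := (Sk 0 : Finset (Fin N))) hf
    simp only [hc, integral_const, probReal_univ, smul_eq_mul, one_mul] at h1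
    simp [ha, hc, h1, hm]
  have i1 := integrable_of_continuous hf
  have i2 := integrable_of_continuous (hf.fun_pow 2)
  have e : ∀ U, (f U - m) ^ 2 = f U ^ 2 - 2 * m * f U + m ^ 2 := fun U => by ring
  simp only [e]
  rw [integral_add (i2.sub' (i1.const_mul _)) (integrable_const _),
    integral_sub i2 (i1.const_mul _), integral_const_mul, hlast, hfirst, ← hm]
  simp
  ring

end Vale.Agent.P166
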