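import Mathlib

/-!
Haar measure on orthogonal groups and on the stabilisers of coordinate subspaces.
-/

namespace Vale.Agent.P166

open MeasureTheory Matrix

/-- Orthogonal matrices. -/
abbrev OG (N : ℕ) := Matrix.unitaryGroup (Fin N) ℝ

variable {N : ℕ}

noncomputable instance : MeasurableSpace (OG N) := borel _
instance : BorelSpace (OG N) := ⟨rfl⟩

lemma continuous_entry (i j : Fin N) :
    Continuous fun U : OG N => (U : Matrix (Fin N) (Fin N) ℝ) i j :=
  (continuous_apply j).comp ((continuous_apply i).comp continuous_subtype_val)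

lemma col_sq (U : OG N) (j : Fin N) : ∑ i, (U : Matrix (Fin N) (Fin N) ℝ) i j ^ 2 = 1 := by
  have h := congrFun (congrFun (Unitary.coe_star_mul_self U) j) j
  simpa [Matrix.mul_apply, sq] using h

lemma row_sq (U : OG N) (i : Fin N) : ∑ j, (U : Matrix (Fin N) (Fin N) ℝ) i j ^ 2 = 1 := by
  have h := congrFun (congrFun (Unitary.coe_mul_star_self U) i) i
  simpa [Matrix.mul_apply, sq] using h

lemma transpose_mul_self (U : OG N) :
    (U : Matrix (Fin N) (Fin N) ℝ)ᵀ * (U : Matrix (Fin N) (Fin N) ℝ) = 1 := by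
  have h := Unitary.coe_star_mul_self U
  rwa [Matrix.star_eq_conjTranspose, Matrix.conjTranspose_eq_transpose_of_trivial] at h

instance : CompactSpace (OG N) := by
  rw [← isCompact_univ_iff, Subtype.isCompact_iff, Set.image_univ, Subtype.range_coe_subtype]
  refine IsCompact.of_isClosed_subset
    (isCompact_univ_pi fun _ : Fin N => isCompact_univ_pi fun _ : Fin N =>
      isCompact_Icc (a := (-1 : ℝ)) (b := 1))
    (isClosed_unitary (R := Matrix (Fin N) (Fin N) ℝ)) fun M hM i _ j _ => ?_
  have h := col_sq ⟨M, hM⟩ j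
  have : M i j ^ 2 ≤ 1 := h ▸
    Finset.single_le_sum (f := fun k => M k j ^ 2) (fun k _ => sq_nonneg _) (Finset.mem_univ i)
  exact Set.mem_Icc.2 (abs_le.1 ((sq_le_one_iff_abs_le_one _).1 this))

/-- Orthogonal matrices fixing the coordinates outside `S`. -/
def fixS (S : Finset (Fin N)) : Subgroup (OG N) where
  carrier := {V | ∀ i ∉ S, ∀ j, (V : Matrix (Fin N) (Fin N) ℝ) i j = if i = j then 1 else 0}
  one_mem' := fun i _ j => by simp [Matrix.one_apply]
  mul_mem' := fun {a b} ha hb i hi j => by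
    rw [Submonoid.coe_mul, Matrix.mul_apply, Finset.sum_eq_single i]
    · rw [ha i hi i, hb i hi j]; simp
    · intro k _ hk; rw [ha i hi k]; simp [Ne.symm hk]
    · simp
  inv_mem' := fun {a} ha i hi j => by
    have h := congrFun (congrFun (congrArg Subtype.val (mul_inv_cancel a)) i) j
    rw [Submonoid.coe_mul, Matrix.mul_apply, Finset.sum_eq_single i] at h
    · rw [ha i hi i, if_pos rfl, one_mul] at h
      simpa [Matrix.one_apply] using h
    · intro k _ hk; rw [ha i hi k]; simp [Ne.symm hk]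
    · simp

lemma mem_fixS {S : Finset (Fin N)} {V : OG N} :
    V ∈ fixS S ↔ ∀ i ∉ S, ∀ j, (V : Matrix (Fin N) (Fin N) ℝ) i j = if i = j then 1 else 0 :=
  Iff.rfl

lemma fixS_mono {S T : Finset (Fin N)} (h : S ⊆ T) : fixS S ≤ fixS T :=
  fun _ hV => mem_fixS.2 fun i hi => mem_fixS.1 hV i fun hS => hi (h hS)

lemma fixS_univ : fixS (Finset.univ : Finset (Fin N)) = ⊤ :=
  eq_top_iff.2 fun _ _ => mem_fixS.2 fun i hi => absurd (Finset.mem_univ i) hi

/-- A coordinate fixed by the row is fixed by the column. -/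
lemma fixS_col {S : Finset (Fin N)} {V : OG N} (hV : V ∈ fixS S) {i : Fin N} (hi : i ∉ S)
    {k : Fin N} (hk : k ≠ i) : (V : Matrix (Fin N) (Fin N) ℝ) k i = 0 := by
  have h := col_sq V i
  rw [← Finset.add_sum_erase _ _ (Finset.mem_univ i), mem_fixS.1 hV i hi i, if_pos rfl] at h
  have h0 : ∑ r ∈ Finset.univ.erase i, (V : Matrix (Fin N) (Fin N) ℝ) r i ^ 2 = 0 := by linarith
  exact pow_eq_zero_iff two_ne_zero |>.1
    ((Finset.sum_eq_zero_iff_of_nonneg fun r _ => sq_nonneg _).1 h0 k
      (Finset.mem_erase.2 ⟨hk, Finset.mem_univ k⟩))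

lemma isClosed_fixS (S : Finset (Fin N)) : IsClosed (fixS S : Set (OG N)) := by
  have : (fixS S : Set (OG N)) = ⋂ i ∈ Sᶜ, ⋂ j,
      {V : OG N | (V : Matrix (Fin N) (Fin N) ℝ) i j = if i = j then 1 else 0} := by
    ext V; simp [mem_fixS]
  rw [this]
  exact isClosed_biInter fun i _ => isClosed_iInter fun j =>
    isClosed_eq (continuous_entry i j) continuous_const

instance (S : Finset (Fin N)) : CompactSpace (fixS S) :=
  isCompact_iff_compactSpace.1 (isClosed_fixS S).isCompact

/-- The probability Haar measure of a compact group. -/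
noncomputable def haarP (G : Type) [Group G] [TopologicalSpace G] [IsTopologicalGroup G]
    [CompactSpace G] [MeasurableSpace G] [BorelSpace G] : Measure G :=
  Measure.haarMeasure ⊤

section compact

variable {G : Type} [Group G] [TopologicalSpace G] [IsTopologicalGroup G] [CompactSpace G]
  [MeasurableSpace G] [BorelSpace G]

instance : Measure.IsHaarMeasure (haarP G) := Measure.isHaarMeasure_haarMeasure _

instance : IsProbabilityMeasure (haarP G) := ⟨by
  rw [haarP, ← TopologicalSpace.PositiveCompacts.coe_top]; exact Measure.haarMeasure_self⟩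

instance : Measure.IsMulRightInvariant (haarP G) := by
  refine ⟨fun g => ?_⟩
  haveI : Measure.IsHaarMeasure ((haarP G).map (· * g)) :=
    Measure.isHaarMeasure_map_mul_right _ g
  haveI : IsProbabilityMeasure ((haarP G).map (· * g)) :=
    Measure.isProbabilityMeasure_map (by fun_prop)
  exact Measure.isHaarMeasure_eq_of_isProbabilityMeasure _ _

lemma integrable_of_continuous {f : G → ℝ} (hf : Continuous f) : Integrable f (haarP G) :=
  hf.integrable_of_hasCompactSupport (HasCompactSupport.of_compactSpace f)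

end compact

/-- Haar average over the stabiliser. -/
noncomputable def avgS (S : Finset (Fin N)) (f : OG N → ℝ) (U : OG N) : ℝ :=
  ∫ V, f ((V : OG N) * U) ∂(haarP (fixS S))

/-- Apply an orthogonal matrix. -/
def app (U : OG N) (x : Fin N → ℝ) : Fin N → ℝ := (U : Matrix (Fin N) (Fin N) ℝ) *ᵥ x

lemma app_mul (V U : OG N) (x : Fin N → ℝ) : app (V * U) x = app V (app U x) := by
  simp [app, Matrix.mulVec_mulVec]

lemma app_one (x : Fin N → ℝ) : app (1 : OG N) x = x := by simp [app]

lemma continuous_app (x : Fin N → ℝ) : Continuous fun U : OG N => app U x :=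
  continuous_pi fun i => by
    unfold app Matrix.mulVec dotProduct
    exact continuous_finsetSum _ fun j _ => (continuous_entry i j).mul continuous_const

lemma sum_sq_app (U : OG N) (x : Fin N → ℝ) : ∑ i, app U x i ^ 2 = ∑ i, x i ^ 2 := by
  have : app U x ⬝ᵥ app U x = x ⬝ᵥ x := by
    rw [app, Matrix.dotProduct_mulVec, Matrix.vecMul_mulVec, transpose_mul_self, Matrix.vecMul_one]
  simpa [dotProduct, sq] using this

lemma app_fixS {S : Finset (Fin N)} {V : OG N} (hV : V ∈ fixS S) (x : Fin N → ℝ) {i : Fin N}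
    (hi : i ∉ S) : app V x i = x i := by
  simp [app, Matrix.mulVec, dotProduct, mem_fixS.1 hV i hi]

lemma sum_sq_app_fixS {S : Finset (Fin N)} {V : OG N} (hV : V ∈ fixS S) (x : Fin N → ℝ) :
    ∑ i ∈ S, app V x i ^ 2 = ∑ i ∈ S, x i ^ 2 := by
  have h := sum_sq_app V x
  rw [← Finset.sum_add_sum_compl S, ← Finset.sum_add_sum_compl S (fun i => x i ^ 2),
    Finset.sum_congr rfl (s₁ := Sᶜ) fun i hi => by rw [app_fixS hV x (Finset.mem_compl.1 hi)]] at h
  linarith

/-! ### Reflections -/

/-- The reflection exchanging a unit multiple of `h`. -/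
noncomputable def reflM (h : Fin N → ℝ) : Matrix (Fin N) (Fin N) ℝ :=
  1 - (2 / (h ⬝ᵥ h)) • Matrix.vecMulVec h h

lemma reflM_mem (h : Fin N → ℝ) : reflM h ∈ Matrix.unitaryGroup (Fin N) ℝ := by
  have hs : star (reflM h) = reflM h := by
    rw [Matrix.star_eq_conjTranspose, Matrix.conjTranspose_eq_transpose_of_trivial]
    simp [reflM, Matrix.transpose_vecMulVec]
  rw [Matrix.mem_unitaryGroup_iff, hs]
  ext i j
  simp only [reflM, Matrix.mul_apply, Matrix.sub_apply, Matrix.smul_apply, Matrix.vecMulVec_apply,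
    smul_eq_mul, Matrix.one_apply]
  set c := 2 / (h ⬝ᵥ h) with hc
  have hcc : c * (c * (h ⬝ᵥ h) - 2) = 0 := by
    rcases eq_or_ne (h ⬝ᵥ h) 0 with h0 | h0
    · simp [hc, h0]
    · rw [hc, div_mul_cancel₀ _ h0]; ring
  have e : ∀ k, ((if i = k then (1:ℝ) else 0) - c * (h i * h k))
      * ((if k = j then (1:ℝ) else 0) - c * (h k * h j))
      = (if i = k then (if k = j then (1:ℝ) else 0) else 0)
        - (if i = k then c * (h k * h j) else 0) - (if k = j then c * (h i * h k) else 0)
        + c * c * (h i * h j) * (h k * h k) := by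
    intro k; split_ifs <;> ring
  simp only [e, Finset.sum_add_distrib, Finset.sum_sub_distrib, Finset.sum_ite_eq,
    Finset.sum_ite_eq', Finset.mem_univ, if_true, ← Finset.mul_sum]
  have : ∑ k, h k * h k = h ⬝ᵥ h := rfl
  rw [this]
  linear_combination (h i * h j) * hcc

/-- The reflection as a group element. -/
noncomputable def refl (h : Fin N → ℝ) : OG N := ⟨reflM h, reflM_mem h⟩

lemma refl_mul_self (h : Fin N → ℝ) : refl h * refl h = 1 := by
  refine Subtype.ext ?_
  have := (refl h).2
  rw [Matrix.mem_unitaryGroup_iff, Matrix.star_eq_conjTranspose,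
    Matrix.conjTranspose_eq_transpose_of_trivial] at this
  simpa [refl, reflM, Matrix.transpose_vecMulVec] using this

lemma app_refl (h x : Fin N → ℝ) (i : Fin N) :
    app (refl h) x i = x i - 2 / (h ⬝ᵥ h) * (h ⬝ᵥ x) * h i := by
  simp [app, refl, reflM, Matrix.sub_mulVec, Matrix.smul_mulVec, Matrix.vecMulVec_mulVec]
  ring

lemma refl_mem {S : Finset (Fin N)} {h : Fin N → ℝ} (hh : ∀ i ∉ S, h i = 0) :
    refl h ∈ fixS S := mem_fixS.2 fun i hi j => by
  simp [refl, reflM, Matrix.vecMulVec_apply, hh i hi, Matrix.one_apply]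

lemma app_refl_exchange {e a : Fin N → ℝ} (hn : a ⬝ᵥ a = e ⬝ᵥ e) :
    app (refl (e - a)) e = a := by
  funext i
  rw [app_refl]
  by_cases h0 : (e - a) ⬝ᵥ (e - a) = 0
  · have : e - a = 0 := dotProduct_self_eq_zero.1 h0
    have : a = e := (sub_eq_zero.1 this).symm
    simp [this]
  · have : 2 / ((e - a) ⬝ᵥ (e - a)) * ((e - a) ⬝ᵥ e) = 1 := by
      rw [div_mul_eq_mul_div, div_eq_one_iff_eq h0]
      simp only [sub_dotProduct, dotProduct_sub, hn, dotProduct_comm e a]
      ring
    rw [this]
    simp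

/-! ### Fourth moments of a row -/

/-- The fourth moment of an entry of a random row. -/
noncomputable def mom4 (S : Finset (Fin N)) (k : Fin N) (x : Fin N → ℝ) : ℝ :=
  ∫ V, app ((V : OG N)) x k ^ 4 ∂(haarP (fixS S))

lemma mom4_right {S : Finset (Fin N)} (k : Fin N) {R : OG N} (hR : R ∈ fixS S) (x : Fin N → ℝ) :
    mom4 S k (app R x) = mom4 S k x := by
  unfold mom4
  simp only [← app_mul]
  exact integral_mul_right_eq_self (μ := haarP (fixS S))
    (fun V : fixS S => app (V : OG N) x k ^ 4) ⟨R, hR⟩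

lemma mom4_smul (S : Finset (Fin N)) (k : Fin N) (c : ℝ) (x : Fin N → ℝ) :
    mom4 S k (c • x) = c ^ 4 * mom4 S k x := by
  unfold mom4
  simp only [app, Matrix.mulVec_smul, Pi.smul_apply, smul_eq_mul, mul_pow]
  exact integral_const_mul _ _

lemma integrable_app_poly (S : Finset (Fin N)) (k : Fin N) (x y : Fin N → ℝ) (p q : ℕ) :
    Integrable (fun V : fixS S => app (V : OG N) x k ^ p * app (V : OG N) y k ^ q)
      (haarP (fixS S)) :=
  integrable_of_continuous ((((continuous_apply k).comp
    ((continuous_app x).comp continuous_subtype_val)).pow p).mul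
    (((continuous_apply k).comp ((continuous_app y).comp continuous_subtype_val)).pow q))

lemma mom4_supported {S : Finset (Fin N)} {k : Fin N} (hk : k ∈ S) {x : Fin N → ℝ}
    (hx : ∀ i ∉ S, x i = 0) :
    mom4 S k x = (x ⬝ᵥ x) ^ 2 * mom4 S k (Pi.single k 1) := by
  set r := Real.sqrt (x ⬝ᵥ x) with hr
  have hn : 0 ≤ x ⬝ᵥ x := Finset.sum_nonneg fun i _ => mul_self_nonneg _
  have h4 : r ^ 4 = (x ⬝ᵥ x) ^ 2 := by
    rw [show r ^ 4 = (r ^ 2) ^ 2 by ring, Real.sq_sqrt hn]
  set e : Fin N → ℝ := r • Pi.single k 1 with he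
  have hee : x ⬝ᵥ x = e ⬝ᵥ e := by
    simp [he, ← sq, Real.sq_sqrt hn, hr]
  have hR : refl (e - x) ∈ fixS S := refl_mem fun i hi => by
    have : i ≠ k := fun h => hi (h ▸ hk)
    simp [he, hx i hi, this]
  have := mom4_right k hR e
  rw [app_refl_exchange hee] at this
  rw [this, he, mom4_smul, h4]

/-- Entries of a random row have fourth moment at most `3 / |S| ^ 2`. -/
lemma mom4_single {S : Finset (Fin N)} {k : Fin N} (hk : k ∈ S) :
    mom4 S k (Pi.single k 1) ≤ 3 / (S.card : ℝ) ^ 2 := by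
  set q := mom4 S k (Pi.single k 1) with hq
  set E : fixS S → Fin N → ℝ := fun V l => app (V : OG N) (Pi.single l 1) k with hE
  have hl : ∀ l ∈ S, ∫ V, E V l ^ 4 ∂(haarP (fixS S)) = q := fun l hl => by
    have := mom4_supported hk (x := Pi.single l 1) fun i hi => by
      simp [show i ≠ l from fun h => hi (h ▸ hl)]
    simpa [hE, hq, mom4] using this
  have hcross : ∀ l ∈ S, ∀ m ∈ S, l ≠ m →
      ∫ V, E V l ^ 2 * E V m ^ 2 ∂(haarP (fixS S)) = q / 3 := by
    intro l hl' m hm' hne
    have hsup : ∀ s : ℝ, s ^ 2 = 1 →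
        mom4 S k (Pi.single l 1 + s • Pi.single m 1) = 4 * q := by
      intro s hs
      rw [mom4_supported hk fun i hi => by
        simp [show i ≠ l from fun h => hi (h ▸ hl'), show i ≠ m from fun h => hi (h ▸ hm')]]
      have : (Pi.single l 1 + s • Pi.single m 1 : Fin N → ℝ)
          ⬝ᵥ (Pi.single l 1 + s • Pi.single m 1) = 2 := by
        simp [hne, hne.symm, ← sq, hs]; norm_num
      rw [this, ← hq]; norm_num
    have hp := hsup 1 (by norm_num)
    have hm := hsup (-1) (by norm_num)
    have i1 : Integrable (fun V => E V l ^ 4) (haarP (fixS S)) := by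
      simpa using integrable_app_poly S k (Pi.single l 1) (Pi.single l 1) 4 0
    have i2 : Integrable (fun V => E V m ^ 4) (haarP (fixS S)) := by
      simpa using integrable_app_poly S k (Pi.single m 1) (Pi.single l 1) 4 0
    have i3 : Integrable (fun V => E V l ^ 2 * E V m ^ 2) (haarP (fixS S)) :=
      integrable_app_poly S k _ _ 2 2
    have hsum := congrArg₂ (· + ·) hp hm
    simp only [mom4] at hsum
    rw [← integral_add (by simpa using integrable_app_poly S k _ (Pi.single l 1) 4 0)
      (by simpa using integrable_app_poly S k _ (Pi.single l 1) 4 0)] at hsum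
    have e : ∀ V : fixS S,
        app (V : OG N) (Pi.single l 1 + (1 : ℝ) • Pi.single m 1) k ^ 4
          + app (V : OG N) (Pi.single l 1 + (-1 : ℝ) • Pi.single m 1) k ^ 4
        = 2 * E V l ^ 4 + 2 * E V m ^ 4 + 12 * (E V l ^ 2 * E V m ^ 2) := by
      intro V
      simp only [hE, app, Matrix.mulVec_add, Matrix.mulVec_smul, Pi.add_apply, Pi.smul_apply,
        smul_eq_mul]
      ring
    simp only [e] at hsum
    rw [integral_add ((i1.const_mul 2).fun_add (i2.const_mul 2)) (i3.const_mul 12),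
      integral_add (i1.const_mul 2) (i2.const_mul 2), integral_const_mul, integral_const_mul,
      integral_const_mul, hl l hl', hl m hm'] at hsum
    linarith
  have hsq : ∀ V : fixS S, ∑ l ∈ S, ∑ m ∈ S, E V l ^ 2 * E V m ^ 2 = 1 := by
    intro V
    have h1 : ∑ l ∈ S, E V l ^ 2 = 1 := by
      have h := row_sq (V : OG N) k
      rw [← Finset.sum_add_sum_compl S, Finset.sum_eq_zero (s := Sᶜ) fun i hi => by
        rw [fixS_col V.2 (Finset.mem_compl.1 hi)
          (fun h : k = i => Finset.mem_compl.1 hi (h ▸ hk))]; norm_num, add_zero] at h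
      simpa [hE, app] using h
    rw [← Finset.sum_mul_sum, h1, one_mul]
  have hone : (1 : ℝ) = ∑ l ∈ S, ∑ m ∈ S, ∫ V, E V l ^ 2 * E V m ^ 2 ∂(haarP (fixS S)) := by
    calc (1 : ℝ) = ∫ V, ∑ l ∈ S, ∑ m ∈ S, E V l ^ 2 * E V m ^ 2 ∂(haarP (fixS S)) := by
          simp only [hsq]; simp
      _ = _ := by
          rw [integral_finsetSum S fun l _ => integrable_finsetSum S fun m _ =>
            integrable_app_poly S k (Pi.single l 1) (Pi.single m 1) 2 2]
          exact Finset.sum_congr rfl fun l _ => integral_finsetSum S fun m _ =>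
            integrable_app_poly S k (Pi.single l 1) (Pi.single m 1) 2 2
  have hinner : ∀ l ∈ S, ∑ m ∈ S, ∫ V, E V l ^ 2 * E V m ^ 2 ∂(haarP (fixS S))
      = q + ((S.card : ℝ) - 1) * (q / 3) := by
    intro l hl'
    rw [← Finset.add_sum_erase _ _ hl', Finset.sum_congr rfl fun m hm =>
      hcross l hl' m (Finset.mem_of_mem_erase hm) (Finset.ne_of_mem_erase hm).symm,
      Finset.sum_const, Finset.card_erase_of_mem hl', nsmul_eq_mul,
      Nat.cast_sub (Finset.card_pos.2 ⟨l, hl'⟩)]
    congr 1
    · rw [← hl l hl']; exact integral_congr_ae (Filter.Eventually.of_forall fun V => by ring)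
    · push_cast; ring
  rw [Finset.sum_congr rfl hinner, Finset.sum_const, nsmul_eq_mul] at hone
  have hS : (0 : ℝ) < S.card := by exact_mod_cast Finset.card_pos.2 ⟨k, hk⟩
  have hq0 : 0 ≤ q := integral_nonneg fun V => (show Even 4 by decide).pow_nonneg _
  rw [le_div_iff₀ (pow_pos hS 2)]
  nlinarith [mul_nonneg hq0 hS.le]

/-- A random row is spread out. -/
lemma mom4_le {S : Finset (Fin N)} {k : Fin N} (hk : k ∈ S) (x : Fin N → ℝ) :
    mom4 S k x ≤ 3 * (∑ i ∈ S, x i ^ 2) ^ 2 / (S.card : ℝ) ^ 2 := by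
  set x' : Fin N → ℝ := fun i => if i ∈ S then x i else 0 with hx'
  have he : mom4 S k x = mom4 S k x' := by
    refine integral_congr_ae (Filter.Eventually.of_forall fun V => ?_)
    simp only [app, Matrix.mulVec, dotProduct]
    congr 1
    refine Finset.sum_congr rfl fun i _ => ?_
    by_cases hi : i ∈ S
    · simp [hx', hi]
    · simp [hx', hi, fixS_col V.2 hi (fun h : k = i => hi (h ▸ hk))]
  have hd : x' ⬝ᵥ x' = ∑ i ∈ S, x i ^ 2 := by
    rw [dotProduct, ← Finset.sum_add_sum_compl S, Finset.sum_eq_zero (s := Sᶜ) fun i hi => by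
      simp [hx', Finset.mem_compl.1 hi], add_zero]
    exact Finset.sum_congr rfl fun i hi => by simp [hx', hi, sq]
  rw [he, mom4_supported hk (fun i hi => by simp [hx', hi]), hd]
  refine (mul_le_mul_of_nonneg_left (mom4_single hk) (sq_nonneg _)).trans (le_of_eq ?_)
  ring

end Vale.Agent.P166
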