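import Vale.Agent.P166.Spectrum

/-!
Spectra with the same limit give the same pressure, which is self-averaging.
-/

namespace Vale.Agent.P166

open MeasureTheory Matrix Filter Topology BoundedContinuousFunction

/-- Deterministic spectra converging to `μ`, with extreme eigenvalues converging to the edges of
the support. -/
structure Admissible (μ : Measure ℝ) (ev : ∀ N, Fin N → ℝ) : Prop where
  weak : ∀ f : ℝ →ᵇ ℝ, Tendsto (fun N => (∑ i, f (ev N i)) / (N : ℝ)) atTop (𝓝 (∫ x, f x ∂μ))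
  top : Tendsto (fun N => ⨆ i, ev N i) atTop (𝓝 (sSup μ.support))
  bot : Tendsto (fun N => ⨅ i, ev N i) atTop (𝓝 (sInf μ.support))

/-- Piecewise linear cut-off: one up to `a`, zero from `a + η` on. -/
noncomputable def ramp (a η : ℝ) : ℝ →ᵇ ℝ :=
  BoundedContinuousFunction.ofNormedAddCommGroup (fun x => max 0 (min 1 ((a + η - x) / η)))
    (by fun_prop) 1 fun x => by
      rw [Real.norm_eq_abs, abs_of_nonneg (le_max_left _ _)]
      exact max_le zero_le_one (min_le_left _ _)

lemma ramp_one {a η x : ℝ} (hη : 0 < η) (hx : x ≤ a) : ramp a η x = 1 := by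
  have : 1 ≤ (a + η - x) / η := (one_le_div hη).2 (by linarith)
  simp [ramp, min_eq_left this]

lemma ramp_zero {a η x : ℝ} (hη : 0 < η) (hx : a + η ≤ x) : ramp a η x = 0 := by
  have : (a + η - x) / η ≤ 0 := div_nonpos_of_nonpos_of_nonneg (by linarith) hη.le
  simp [ramp, min_eq_right (this.trans zero_le_one), this]

lemma ramp_mem (a η x : ℝ) : 0 ≤ ramp a η x ∧ ramp a η x ≤ 1 :=
  ⟨le_max_left _ _, max_le zero_le_one (min_le_left _ _)⟩

lemma cnt_ramp {N : ℕ} (ev : Fin N → ℝ) {a η : ℝ} (hη : 0 < η) :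
    (cntLe ev a : ℝ) ≤ ∑ i, ramp a η (ev i) ∧ ∑ i, ramp a η (ev i) ≤ cntLe ev (a + η) := by
  unfold cntLe
  simp only [Finset.card_filter, Nat.cast_sum]
  constructor <;> refine Finset.sum_le_sum fun i _ => ?_
  · split_ifs with h
    · simp [ramp_one hη h]
    · simpa using (ramp_mem a η _).1
  · split_ifs with h
    · simpa using (ramp_mem a η _).2
    · simp [ramp_zero hη (not_le.1 h).le]

variable {μ : Measure ℝ} [IsProbabilityMeasure μ]

lemma sSup_mem (hμ : IsCompact μ.support) : sSup μ.support ∈ μ.support := by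
  refine hμ.sSup_mem ?_
  by_contra h
  rw [Set.not_nonempty_iff_eq_empty] at h
  have h1 : μ.support ∈ ae μ := Measure.support_mem_ae
  rw [h, empty_mem_iff_bot, ae_eq_bot] at h1
  exact IsProbabilityMeasure.ne_zero μ h1

variable {ev : ∀ N, Fin N → ℝ}

/-- Uniform bound. -/
noncomputable def radius (μ : Measure ℝ) : ℝ := |sSup μ.support| + |sInf μ.support| + 1

omit [IsProbabilityMeasure μ] in
lemma eventually_bounds (h : Admissible μ ev) {η : ℝ} (hη : 0 < η) :
    ∀ᶠ N in atTop, ∀ i, |ev N i| ≤ radius μ ∧ ev N i ≤ sSup μ.support + η := by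
  filter_upwards [h.top.eventually (gt_mem_nhds (lt_add_of_pos_right _ (lt_min hη one_pos))),
    h.bot.eventually (lt_mem_nhds (sub_lt_self _ one_pos))] with N h1 h2 i
  have u : ev N i ≤ ⨆ l, ev N l := le_ciSup (Finite.bddAbove_range _) i
  have l : (⨅ l, ev N l) ≤ ev N i := ciInf_le (Finite.bddBelow_range _) i
  have := min_le_left η 1
  have := min_le_right η 1
  have := le_abs_self (sSup μ.support)
  have := neg_abs_le (sInf μ.support)
  have := abs_nonneg (sSup μ.support)
  have := abs_nonneg (sInf μ.support)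
  refine ⟨abs_le.2 ⟨?_, ?_⟩, by linarith⟩ <;> unfold radius <;> linarith

/-- A positive fraction of the eigenvalues is near the top. -/
lemma eventually_edge (hμ : IsCompact μ.support) {η : ℝ} (hη : 0 < η) :
    ∃ m : ℝ, 0 < m ∧ ∀ {ev : ∀ N, Fin N → ℝ}, Admissible μ ev →
      ∀ᶠ N in atTop, Edge (ev N) (radius μ) (sSup μ.support) η m := by
  set b := sSup μ.support
  set f : ℝ →ᵇ ℝ := 1 - ramp (b - η) (η / 2) with hf
  have hfx : ∀ x, f x = 1 - ramp (b - η) (η / 2) x := fun x => rfl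
  have hpos : 0 < ∫ x, f x ∂μ := by
    have hI : 0 < μ.real (Set.Ioi (b - η / 2)) := by
      rw [measureReal_def, ENNReal.toReal_pos_iff]
      exact ⟨(Measure.mem_support_iff_forall b).1 (sSup_mem hμ) _ (Ioi_mem_nhds (by linarith)),
        measure_lt_top _ _⟩
    refine hI.trans_le ?_
    rw [← integral_indicator_one (μ := μ) (measurableSet_Ioi (a := b - η / 2))]
    refine integral_mono ((integrable_const 1).indicator measurableSet_Ioi) (f.integrable μ)
      fun x => ?_
    rw [hfx]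
    by_cases hx : x ∈ Set.Ioi (b - η / 2)
    · rw [Set.indicator_of_mem hx, ramp_zero (by linarith)]
      · simp
      · have : b - η / 2 < x := hx
        linarith
    · rw [Set.indicator_of_notMem hx]
      linarith [(ramp_mem (b - η) (η / 2) x).2]
  refine ⟨(∫ x, f x ∂μ) / 2, by linarith, fun {ev} h => ?_⟩
  filter_upwards [eventually_bounds h hη, eventually_gt_atTop 0,
    (h.weak f).eventually (lt_mem_nhds (half_lt_self hpos))] with N hb hN hw
  refine ⟨fun i => (hb i).1, ?_, hη.le, fun i => (hb i).2, by linarith, ?_⟩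
  · have := le_abs_self b
    have := abs_nonneg (sInf μ.support)
    unfold radius; linarith
  · rw [lt_div_iff₀ (by exact_mod_cast hN)] at hw
    refine hw.le.trans ?_
    unfold cntGe
    rw [Finset.card_filter, Nat.cast_sum]
    refine Finset.sum_le_sum fun i _ => ?_
    rw [hfx]
    split_ifs with hi
    · simpa using (ramp_mem _ _ _).1
    · rw [ramp_one (by linarith) (not_le.1 hi).le]; simp

/-- Counting functions are close. -/
lemma eventually_cnt {ev ev' : ∀ N, Fin N → ℝ} (h : Admissible μ ev) (h' : Admissible μ ev')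
    {η ε : ℝ} (hη : 0 < η) (hε : 0 < ε) :
    ∀ᶠ N in atTop, ∀ t, cntLe (ev N) t ≤ cntLe (ev' N) (t + 2 * η) + ⌈ε * N⌉₊ := by
  set C := radius μ
  set J := ⌈2 * C / η⌉₊
  have hgrid : ∀ᶠ N in atTop, ∀ j ∈ Finset.range (J + 1),
      (∑ i, ramp (-C + j * η) η (ev N i)) / (N : ℝ)
        ≤ (∑ i, ramp (-C + j * η) η (ev' N i)) / (N : ℝ) + ε := by
    rw [eventually_all_finset]
    intro j _
    have := (h.weak (ramp (-C + j * η) η)).sub (h'.weak (ramp (-C + j * η) η))
    rw [sub_self] at this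
    filter_upwards [this.eventually (gt_mem_nhds hε)] with N hN
    linarith
  filter_upwards [hgrid, eventually_bounds h hη, eventually_bounds h' hη, eventually_gt_atTop 0]
    with N hg hb hb' hN t
  by_cases ht : t < -C
  · have : cntLe (ev N) t = 0 := Finset.card_eq_zero.2 (Finset.filter_eq_empty_iff.2
      fun i _ => not_le.2 (ht.trans_le (abs_le.1 (hb i).1).1))
    omega
  by_cases ht' : C ≤ t + 2 * η
  · have h1 : cntLe (ev N) t ≤ N := (Finset.card_le_univ _).trans_eq (Fintype.card_fin N)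
    have h2 : cntLe (ev' N) (t + 2 * η) = N := by
      rw [cntLe, Finset.filter_true_of_mem fun i _ => ((abs_le.1 (hb' i).1).2).trans ht',
        Finset.card_univ, Fintype.card_fin]
    omega
  rw [not_lt] at ht
  rw [not_le] at ht'
  set j := ⌈(t + C) / η⌉₊
  have hj0 : 0 ≤ (t + C) / η := div_nonneg (by linarith) hη.le
  have hjJ : j ∈ Finset.range (J + 1) := Finset.mem_range.2 (Nat.lt_succ_of_le
    (Nat.ceil_mono (div_le_div_of_nonneg_right (by linarith) hη.le)))
  have hj1 : t ≤ -C + j * η := by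
    have := (div_le_iff₀ hη).1 (Nat.le_ceil ((t + C) / η))
    linarith
  have hj2 : -C + j * η + η ≤ t + 2 * η := by
    have := Nat.ceil_lt_add_one hj0
    rw [← sub_lt_iff_lt_add, lt_div_iff₀ hη] at this
    linarith
  have mono : ∀ {M : ℕ} (e : Fin M → ℝ) {a c : ℝ}, a ≤ c → (cntLe e a : ℝ) ≤ cntLe e c :=
    fun e a c hac => Nat.cast_le.2 (Finset.card_le_card fun i hi => by
      simp only [Finset.mem_filter] at hi ⊢; exact ⟨hi.1, hi.2.trans hac⟩)
  have hN' : (0 : ℝ) < N := by exact_mod_cast hN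
  have hgj := hg j hjJ
  rw [div_add' _ _ _ hN'.ne', div_le_div_iff_of_pos_right hN'] at hgj
  have : (cntLe (ev N) t : ℝ) ≤ cntLe (ev' N) (t + 2 * η) + ⌈ε * N⌉₊ := by
    linarith [mono (ev N) hj1, (cnt_ramp (ev N) hη (a := -C + j * η)).1,
      (cnt_ramp (ev' N) hη (a := -C + j * η)).2, mono (ev' N) hj2, Nat.le_ceil (ε * N)]
  exact_mod_cast this

omit [IsProbabilityMeasure μ] in
lemma ceil_bounds {ε : ℝ} {N : ℕ} (hε : 0 < ε) (hε1 : ε ≤ 1 / 8) (hN : 1 ≤ ε * N) :
    ε * N ≤ ⌈ε * N⌉₊ ∧ (⌈ε * N⌉₊ : ℝ) ≤ 2 * (ε * N) ∧ 0 < ⌈ε * N⌉₊ ∧ 2 * ⌈ε * N⌉₊ < N := by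
  have h0 : 0 ≤ ε * N := by linarith
  have h1 := Nat.ceil_lt_add_one h0
  refine ⟨Nat.le_ceil _, by linarith, Nat.ceil_pos.2 (by linarith), ?_⟩
  have : (2 * ⌈ε * N⌉₊ : ℕ) < (N : ℝ) := by
    push_cast
    have : ε * N ≤ 1 / 8 * N := mul_le_mul_of_nonneg_right hε1 (Nat.cast_nonneg _)
    nlinarith
  exact_mod_cast this

/-- Universality in expectation, one side. -/
lemma eventually_mean_le {β : ℝ} (hβ : 0 ≤ β) (hμ : IsCompact μ.support)
    {ev ev' : ∀ N, Fin N → ℝ} (h : Admissible μ ev) (h' : Admissible μ ev') {τ : ℝ} (hτ : 0 < τ) :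
    ∀ᶠ N in atTop, mean β (ev' N) ≤ mean β (ev N) + τ := by
  set η := τ / (5 * (β + 1)) with hη'
  have hη : 0 < η := by positivity
  obtain ⟨m, hm, he⟩ := eventually_edge (μ := μ) hμ hη
  set C := radius μ with hC'
  have hC : 0 < C := by unfold C radius; positivity
  set ε := min (1 / 8) (τ * m / (8 * C * (β + 1))) with hε'
  have hε : 0 < ε := by positivity
  filter_upwards [he h, eventually_cnt h h' hη hε, eventually_bounds h' hη,
    (tendsto_natCast_atTop_atTop (R := ℝ)).eventually_ge_atTop (1 / ε)] with N hE hcnt hb hN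
  rw [div_le_iff₀ hε, mul_comm] at hN
  obtain ⟨-, k2, k3, k4⟩ := ceil_bounds hε (min_le_left _ _) hN
  have hNp : 0 < N := by omega
  refine (mean_cnt_le hβ hE hNp (by omega) (by linarith : (0:ℝ) ≤ 2 * η)
    (fun i => by linarith [(hb i).2]) hcnt).trans ?_
  have hmN : 0 < m * N := mul_pos hm (by exact_mod_cast hNp)
  have e1 : 2 * C * (⌈ε * N⌉₊ : ℝ) / (m * N) ≤ τ / (2 * (β + 1)) := by
    rw [div_le_div_iff₀ hmN (by positivity)]
    have h3 : ε * (8 * C * (β + 1)) ≤ τ * m := (le_div_iff₀ (by positivity)).1 (min_le_right _ _)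
    nlinarith [mul_le_mul_of_nonneg_left k2 (show 0 ≤ 4 * C * (β + 1) by positivity),
      mul_le_mul_of_nonneg_right h3 (Nat.cast_nonneg (α := ℝ) N)]
  have e2 : β / 2 * (2 * η + 2 * η + τ / (2 * (β + 1))) ≤ τ := by
    rw [hη']
    field_simp
    nlinarith
  nlinarith [mul_le_mul_of_nonneg_left e1 (show 0 ≤ β / 2 by positivity)]

/-- Self-averaging. -/
lemma tendsto_dev {β : ℝ} (hβ : 0 ≤ β) (hμ : IsCompact μ.support) (h : Admissible μ ev) :
    Tendsto (fun N => dev β (ev N)) atTop (𝓝 0) := by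
  refine Metric.tendsto_nhds.2 fun τ hτ => ?_
  set η := τ / (12 * (β + 1)) with hη'
  have hη : 0 < η := by positivity
  obtain ⟨m, hm, he⟩ := eventually_edge (μ := μ) hμ hη
  set C := radius μ
  have hC : 0 < C := by unfold C radius; positivity
  set ε := min (1 / 8) (τ * m / (32 * C * (β + 1))) with hε'
  have hε : 0 < ε := by positivity
  set A := 24 * β ^ 2 * (C ^ 4 + (1 + 2 * C) ^ 2) with hA
  filter_upwards [he h, (tendsto_natCast_atTop_atTop (R := ℝ)).eventually_ge_atTop (1 / ε),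
    (tendsto_natCast_atTop_atTop (R := ℝ)).eventually_gt_atTop (8 * A / (ε ^ 2 * τ ^ 2))]
    with N hE hN hN2
  rw [div_le_iff₀ hε, mul_comm] at hN
  obtain ⟨k1, k2, k3, k4⟩ := ceil_bounds hε (min_le_left _ _) hN
  have hd := dev_le hβ hE k3 k4 (t := τ / 4) (by positivity)
  have h0 : 0 ≤ dev β (ev N) := integral_nonneg fun U => abs_nonneg _
  rw [Real.dist_eq, sub_zero, abs_of_nonneg h0]
  refine hd.trans_lt ?_
  have hNp : (0 : ℝ) < N := by exact_mod_cast (show 0 < N by omega)
  have e1 : A * N / (⌈ε * N⌉₊ : ℝ) ^ 2 / (2 * (τ / 4)) < τ / 4 := by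
    have : A * N / (⌈ε * N⌉₊ : ℝ) ^ 2 ≤ A * N / (ε * N) ^ 2 := by
      gcongr
    rw [div_lt_iff₀ (by positivity)]
    refine this.trans_lt ?_
    rw [div_lt_iff₀ (by positivity)]
    rw [div_lt_iff₀ (by positivity)] at hN2
    nlinarith [mul_lt_mul_of_pos_left hN2 hNp]
  have e2 : 4 * C * (⌈ε * N⌉₊ : ℝ) / (m * N) ≤ τ / (4 * (β + 1)) := by
    rw [div_le_div_iff₀ (by positivity) (by positivity)]
    have h3 : ε * (32 * C * (β + 1)) ≤ τ * m := (le_div_iff₀ (by positivity)).1 (min_le_right _ _)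
    nlinarith [mul_le_mul_of_nonneg_left k2 (show 0 ≤ 16 * C * (β + 1) by positivity),
      mul_le_mul_of_nonneg_right h3 hNp.le]
  have e3 : β * (3 * η + τ / (4 * (β + 1))) ≤ τ / 2 := by
    rw [hη']
    field_simp
    nlinarith
  nlinarith [mul_le_mul_of_nonneg_left e2 hβ]

/-- The pressure concentrates around a sequence depending only on `β` and `μ`. -/
theorem exists_center {β : ℝ} (hβ : 0 ≤ β) (hμ : IsCompact μ.support) :
    ∃ c : ℕ → ℝ, ∀ ev, Admissible μ ev →
      Tendsto (fun N => ∫ U, |pr β (ev N) U - c N| ∂(haarP (OG N))) atTop (𝓝 0) := by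
  by_cases hex : ∃ ev0, Admissible μ ev0
  · obtain ⟨ev0, h0⟩ := hex
    refine ⟨fun N => mean β (ev0 N), fun ev h => ?_⟩
    refine Metric.tendsto_nhds.2 fun τ hτ => ?_
    filter_upwards [(tendsto_dev hβ hμ h).eventually (gt_mem_nhds (half_pos hτ)),
      eventually_mean_le hβ hμ h h0 (show 0 < τ / 4 by linarith),
      eventually_mean_le hβ hμ h0 h (show 0 < τ / 4 by linarith)] with N hd u l
    have h1 : ∫ U, |pr β (ev N) U - mean β (ev0 N)| ∂(haarP (OG N))
        ≤ dev β (ev N) + τ / 4 := by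
      have i1 : Integrable (fun U => |pr β (ev N) U - mean β (ev N)|) (haarP (OG N)) :=
        ((integrable_pr β _).sub' (integrable_const _)).abs
      refine (integral_mono ((integrable_pr β _).sub' (integrable_const _)).abs
        (i1.fun_add (integrable_const (τ / 4))) fun U => ?_).trans (le_of_eq ?_)
      · simp only
        rw [abs_le]
        obtain ⟨a, c⟩ := abs_le.1 (le_refl |pr β (ev N) U - mean β (ev N)|)
        constructor <;> linarith
      · rw [integral_add i1 (integrable_const _)]; simp [dev]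
    rw [Real.dist_eq, sub_zero, abs_of_nonneg (integral_nonneg fun U => abs_nonneg _)]
    linarith
  · exact ⟨0, fun ev h => absurd ⟨ev, h⟩ hex⟩

end Vale.Agent.P166
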