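import Vale.Agent.P166.Haar

/-!
The pressure, and what convexity and symmetry in the spectrum give.
-/

namespace Vale.Agent.P166

open MeasureTheory Matrix

variable {N : ℕ}

/-- The spin vector of a configuration. -/
def spin (σ : Fin N → Bool) : Fin N → ℝ := fun i => if σ i then 1 else -1

/-- The pressure of `Uᵀ diag(ev) U`. -/
noncomputable def pr (β : ℝ) (ev : Fin N → ℝ) (U : OG N) : ℝ :=
  (1 / (N : ℝ)) * Real.log (((2 : ℝ) ^ N)⁻¹ * ∑ σ : Fin N → Bool,
    Real.exp (β / 2 * (spin σ ⬝ᵥ (((U : Matrix (Fin N) (Fin N) ℝ)ᵀ * Matrix.diagonal ev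
      * (U : Matrix (Fin N) (Fin N) ℝ)) *ᵥ spin σ))))

/-- The energy of a vector. -/
noncomputable def eng (β : ℝ) (ev v : Fin N → ℝ) : ℝ := β / 2 * ∑ i, ev i * v i ^ 2

/-- Normalised log-sum-exp. -/
noncomputable def lse (a : (Fin N → Bool) → ℝ) : ℝ :=
  (1 / (N : ℝ)) * Real.log (((2 : ℝ) ^ N)⁻¹ * ∑ σ, Real.exp (a σ))

lemma pr_eq (β : ℝ) (ev : Fin N → ℝ) (U : OG N) :
    pr β ev U = lse fun σ => eng β ev (app U (spin σ)) := by
  have h : ∀ x : Fin N → ℝ, x ⬝ᵥ (((U : Matrix (Fin N) (Fin N) ℝ)ᵀ * Matrix.diagonal ev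
      * (U : Matrix (Fin N) (Fin N) ℝ)) *ᵥ x) = ∑ i, ev i * app U x i ^ 2 := by
    intro x
    rw [← Matrix.mulVec_mulVec, ← Matrix.mulVec_mulVec, Matrix.dotProduct_mulVec,
      Matrix.vecMul_transpose]
    exact Finset.sum_congr rfl fun i _ => by simp [Matrix.mulVec_diagonal, app]; ring
  simp only [pr, lse, eng, h]

/-- The averaged pressure. -/
noncomputable def mean (β : ℝ) (ev : Fin N → ℝ) : ℝ := ∫ U, pr β ev U ∂(haarP (OG N))

lemma continuous_eng_app (β : ℝ) (ev x : Fin N → ℝ) :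
    Continuous fun U : OG N => eng β ev (app U x) := by
  unfold eng
  exact continuous_const.mul (continuous_finsetSum _ fun i _ =>
    continuous_const.mul (((continuous_apply i).comp (continuous_app x)).pow 2))

lemma sum_exp_pos (a : (Fin N → Bool) → ℝ) : 0 < ∑ σ, Real.exp (a σ) :=
  Finset.sum_pos (fun σ _ => Real.exp_pos _) Finset.univ_nonempty

lemma continuous_pr (β : ℝ) (ev : Fin N → ℝ) : Continuous (pr β ev) := by
  have h : Continuous fun U : OG N =>
      ((2 : ℝ) ^ N)⁻¹ * ∑ σ, Real.exp (eng β ev (app U (spin σ))) :=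
    continuous_const.mul (continuous_finsetSum _ fun σ _ =>
      Real.continuous_exp.comp (continuous_eng_app β ev (spin σ)))
  have h2 : Continuous fun U : OG N =>
      (1 / (N : ℝ)) * Real.log (((2 : ℝ) ^ N)⁻¹ * ∑ σ, Real.exp (eng β ev (app U (spin σ)))) :=
    continuous_const.mul (h.log fun U => (mul_pos (by positivity) (sum_exp_pos _)).ne')
  exact h2.congr fun U => by rw [pr_eq, lse]

/-- Gibbs weights. -/
noncomputable def gib (a : (Fin N → Bool) → ℝ) (σ : Fin N → Bool) : ℝ :=
  Real.exp (a σ) / ∑ τ, Real.exp (a τ)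

lemma gib_nonneg (a : (Fin N → Bool) → ℝ) (σ : Fin N → Bool) : 0 ≤ gib a σ :=
  div_nonneg (Real.exp_pos _).le (sum_exp_pos a).le

lemma sum_gib (a : (Fin N → Bool) → ℝ) : ∑ σ, gib a σ = 1 := by
  unfold gib
  rw [← Finset.sum_div, div_self (sum_exp_pos a).ne']

/-- Tangent inequality for log-sum-exp. -/
lemma lse_tangent (a b : (Fin N → Bool) → ℝ) :
    lse a + (1 / (N : ℝ)) * ∑ σ, gib a σ * (b σ - a σ) ≤ lse b := by
  set m := ∑ σ, gib a σ * (b σ - a σ) with hm
  have h : Real.exp m * ∑ σ, Real.exp (a σ) ≤ ∑ σ, Real.exp (b σ) := by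
    have hp : ∀ σ, Real.exp m * (1 + ((b σ - a σ) - m)) * Real.exp (a σ) ≤ Real.exp (b σ) := by
      intro σ
      have := Real.add_one_le_exp ((b σ - a σ) - m)
      calc Real.exp m * (1 + ((b σ - a σ) - m)) * Real.exp (a σ)
          ≤ Real.exp m * Real.exp ((b σ - a σ) - m) * Real.exp (a σ) := by gcongr; linarith
        _ = Real.exp (b σ) := by rw [← Real.exp_add, ← Real.exp_add]; congr 1; ring
    refine le_trans (le_of_eq ?_) (Finset.sum_le_sum fun σ _ => hp σ)
    have e : ∀ σ, Real.exp m * (1 + ((b σ - a σ) - m)) * Real.exp (a σ)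
        = Real.exp m * Real.exp (a σ)
          + Real.exp m * (∑ τ, Real.exp (a τ)) * (gib a σ * (b σ - a σ) - m * gib a σ) := by
      intro σ
      rw [gib]
      field_simp [(sum_exp_pos a).ne']
    simp only [e, Finset.sum_add_distrib, ← Finset.mul_sum, Finset.sum_sub_distrib, sum_gib, ← hm]
    ring
  unfold lse
  rw [← mul_add]
  refine mul_le_mul_of_nonneg_left ?_ (by positivity)
  rw [← Real.log_exp m, ← Real.log_mul (mul_pos (by positivity) (sum_exp_pos a)).ne'
    (Real.exp_pos m).ne']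
  refine Real.log_le_log (mul_pos (mul_pos (by positivity) (sum_exp_pos a)) (Real.exp_pos m)) ?_
  rw [mul_assoc, mul_comm (∑ σ, Real.exp (a σ))]
  exact mul_le_mul_of_nonneg_left h (by positivity)

lemma lse_le_add (a b : (Fin N → Bool) → ℝ) {c : ℝ} (h : ∀ σ, a σ ≤ b σ + c) :
    lse a ≤ lse b + c / N := by
  have h1 := lse_tangent a b
  have h2 : -c ≤ ∑ σ, gib a σ * (b σ - a σ) := by
    calc -c = ∑ σ, gib a σ * -c := by rw [← Finset.sum_mul, sum_gib, one_mul]
      _ ≤ _ := Finset.sum_le_sum fun σ _ =>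
          mul_le_mul_of_nonneg_left (by linarith [h σ]) (gib_nonneg a σ)
  have h3 := mul_le_mul_of_nonneg_left h2 (show (0:ℝ) ≤ 1 / N by positivity)
  have : 1 / (N : ℝ) * -c = -(c / N) := by ring
  linarith

/-- Convexity. -/
lemma lse_avg {κ : Type} [Fintype κ] [Nonempty κ] (a : κ → (Fin N → Bool) → ℝ) :
    lse (fun σ => (∑ r, a r σ) / Fintype.card κ) ≤ (∑ r, lse (a r)) / Fintype.card κ := by
  set A : (Fin N → Bool) → ℝ := fun σ => (∑ r, a r σ) / Fintype.card κ with hA
  have hc : (0 : ℝ) < Fintype.card κ := by exact_mod_cast Fintype.card_pos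
  rw [le_div_iff₀ hc]
  have h := Finset.sum_le_sum (s := Finset.univ) fun r _ => lse_tangent A (a r)
  have h0 : ∑ r, ∑ σ, gib A σ * (a r σ - A σ) = 0 := by
    rw [Finset.sum_comm]
    refine Finset.sum_eq_zero fun σ _ => ?_
    rw [← Finset.mul_sum, Finset.sum_sub_distrib, Finset.sum_const, Finset.card_univ, nsmul_eq_mul,
      hA]
    field_simp
    ring
  rw [Finset.sum_add_distrib, ← Finset.mul_sum, h0, mul_zero, add_zero, Finset.sum_const,
    Finset.card_univ, nsmul_eq_mul] at h
  linarith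

/-- Monotone and Lipschitz in the spectrum. -/
lemma pr_le_add {β : ℝ} (hβ : 0 ≤ β) {ev ev' : Fin N → ℝ} {η : ℝ} (hη : 0 ≤ η)
    (h : ∀ i, ev i ≤ ev' i + η) (U : OG N) : pr β ev U ≤ pr β ev' U + β / 2 * η := by
  rw [pr_eq, pr_eq]
  refine (lse_le_add _ (fun σ => eng β ev' (app U (spin σ))) (c := β / 2 * η * N) fun σ => ?_).trans ?_
  · have hs : ∑ i, app U (spin σ) i ^ 2 = N := by
      rw [sum_sq_app]; simp [spin]
    rw [eng, eng, ← hs, mul_assoc (β / 2), ← mul_add, Finset.mul_sum _ _ η,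
      ← Finset.sum_add_distrib]
    refine mul_le_mul_of_nonneg_left (Finset.sum_le_sum fun i _ => ?_) (by positivity)
    rw [← add_mul]
    exact mul_le_mul_of_nonneg_right (h i) (sq_nonneg _)
  · rcases Nat.eq_zero_or_pos N with hN | hN
    · subst hN
      simp only [Nat.cast_zero, div_zero, add_zero, le_add_iff_nonneg_right]
      positivity
    · rw [mul_div_assoc, div_self (by positivity), mul_one]

lemma pr_mono {β : ℝ} (hβ : 0 ≤ β) {ev ev' : Fin N → ℝ} (h : ∀ i, ev i ≤ ev' i) (U : OG N) :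
    pr β ev U ≤ pr β ev' U := by
  simpa using pr_le_add hβ le_rfl (ev := ev) (ev' := ev') (fun i => by simpa using h i) U

lemma integrable_pr (β : ℝ) (ev : Fin N → ℝ) : Integrable (pr β ev) (haarP (OG N)) :=
  integrable_of_continuous (continuous_pr β ev)

lemma mean_le_add {β : ℝ} (hβ : 0 ≤ β) {ev ev' : Fin N → ℝ} {η : ℝ} (hη : 0 ≤ η)
    (h : ∀ i, ev i ≤ ev' i + η) : mean β ev ≤ mean β ev' + β / 2 * η := by
  refine (integral_mono (integrable_pr β ev) ((integrable_pr β ev').add (integrable_const _))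
    fun U => pr_le_add hβ hη h U).trans (le_of_eq ?_)
  rw [integral_add' (integrable_pr β ev') (integrable_const _)]
  simp [mean]

/-- A permutation of the coordinates as an orthogonal matrix. -/
noncomputable def permU (π : Equiv.Perm (Fin N)) : OG N :=
  ⟨π.permMatrix ℝ, by
    rw [Matrix.mem_unitaryGroup_iff, Matrix.star_eq_conjTranspose,
      Matrix.conjTranspose_eq_transpose_of_trivial, Matrix.transpose_permMatrix,
      ← Matrix.permMatrix_mul]
    simp⟩

lemma app_permU (π : Equiv.Perm (Fin N)) (x : Fin N → ℝ) (i : Fin N) :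
    app (permU π) x i = x (π i) := by
  simp [app, permU, Matrix.permMatrix_mulVec]

lemma pr_perm (β : ℝ) (ev : Fin N → ℝ) (π : Equiv.Perm (Fin N)) (U : OG N) :
    pr β (fun i => ev (π i)) U = pr β ev (permU π.symm * U) := by
  rw [pr_eq, pr_eq]
  congr 1
  funext σ
  simp only [eng, app_mul, app_permU]
  congr 1
  exact Fintype.sum_equiv π _ _ fun i => by simp

lemma mean_perm (β : ℝ) (ev : Fin N → ℝ) (π : Equiv.Perm (Fin N)) :
    mean β (fun i => ev (π i)) = mean β ev := by
  simp only [mean, pr_perm]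
  exact integral_mul_left_eq_self _ _

/-- Constant on `B`, unchanged elsewhere. -/
def onSet (B : Finset (Fin N)) (c : ℝ) (ev : Fin N → ℝ) (i : Fin N) : ℝ :=
  if i ∈ B then c else ev i

/-- Symmetry and convexity: flattening a block lowers the mean pressure. -/
lemma mean_flatten (β : ℝ) (ev : Fin N → ℝ) {B : Finset (Fin N)} (hB : B.Nonempty) :
    mean β (onSet B ((∑ i ∈ B, ev i) / B.card) ev) ≤ mean β ev := by
  have hpos : 0 < B.card := hB.card_pos
  haveI : NeZero B.card := ⟨hpos.ne'⟩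
  set e : Fin B.card ≃ B := B.equivFin.symm
  set rot : Fin B.card → Equiv.Perm (Fin N) := fun r =>
    Equiv.Perm.ofSubtype (e.symm.trans ((Equiv.addRight r).trans e)) with hrot
  have hev : ∀ i, onSet B ((∑ i ∈ B, ev i) / B.card) ev i
      = (∑ r, ev (rot r i)) / B.card := by
    intro i
    by_cases hi : i ∈ B
    · rw [onSet, if_pos hi]
      congr 1
      simp only [hrot, Equiv.Perm.ofSubtype_apply_of_mem _ hi, Equiv.trans_apply,
        Equiv.coe_addRight]
      rw [← Finset.sum_coe_sort B]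
      exact (Fintype.sum_equiv ((Equiv.addLeft (e.symm ⟨i, hi⟩)).trans e) _ _ fun r => rfl).symm
    · rw [onSet, if_neg hi]
      simp only [hrot, Equiv.Perm.ofSubtype_apply_of_not_mem _ hi, Finset.sum_const,
        Finset.card_univ, Fintype.card_fin, nsmul_eq_mul]
      field_simp
  have hpt : ∀ U : OG N, pr β (onSet B ((∑ i ∈ B, ev i) / B.card) ev) U
      ≤ (∑ r, pr β (fun i => ev (rot r i)) U) / B.card := by
    intro U
    have h := lse_avg (fun (r : Fin B.card) (σ : Fin N → Bool) =>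
      eng β (fun i => ev (rot r i)) (app U (spin σ)))
    simp only [Fintype.card_fin, ← pr_eq] at h
    refine le_trans (le_of_eq ?_) h
    rw [pr_eq]
    congr 1
    funext σ
    simp only [eng, hev, ← Finset.mul_sum]
    rw [Finset.sum_comm, mul_div_assoc, Finset.sum_div]
    congr 1
    refine Finset.sum_congr rfl fun i _ => ?_
    rw [← Finset.sum_mul, div_mul_eq_mul_div]
  refine (integral_mono (integrable_pr _ _)
    ((integrable_finsetSum _ fun r _ => integrable_pr β _).div_const _) hpt).trans (le_of_eq ?_)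
  rw [integral_div, integral_finsetSum _ fun r _ => integrable_pr β _]
  change (∑ r, mean β fun i => ev (rot r i)) / (B.card : ℝ) = mean β ev
  simp only [mean_perm, Finset.sum_const, Finset.card_univ, Fintype.card_fin, nsmul_eq_mul]
  field_simp

/-- Raising a block to its top costs the average deficit. -/
lemma mean_raise {β : ℝ} (hβ : 0 ≤ β) (ev : Fin N → ℝ) {B : Finset (Fin N)} (hB : B.Nonempty)
    {L D : ℝ} (hD : 0 ≤ D) (h : ∑ i ∈ B, (L - ev i) ≤ D * B.card) :
    mean β (onSet B L ev) ≤ mean β ev + β / 2 * D := by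
  refine le_trans ?_ (add_le_add_left (mean_flatten β ev hB) _)
  refine mean_le_add hβ hD fun i => ?_
  unfold onSet
  split_ifs
  · rw [Finset.sum_sub_distrib, Finset.sum_const, nsmul_eq_mul] at h
    have hc : (0 : ℝ) < B.card := by exact_mod_cast hB.card_pos
    rw [← sub_le_iff_le_add, le_div_iff₀ hc]
    linarith
  · linarith

end Vale.Agent.P166
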