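import Vale.Agent.P166.Variance

/-!
Moving few eigenvalues inside the spectral range does not change the pressure.
-/

namespace Vale.Agent.P166

open MeasureTheory Matrix

variable {N : ℕ}

/-- Number of eigenvalues at least `x`. -/
noncomputable def cntGe (ev : Fin N → ℝ) (x : ℝ) : ℕ :=
  (Finset.univ.filter fun i => x ≤ ev i).card

/-- Number of eigenvalues at most `x`. -/
noncomputable def cntLe (ev : Fin N → ℝ) (x : ℝ) : ℕ :=
  (Finset.univ.filter fun i => ev i ≤ x).card

/-- Mean deviation of the pressure. -/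
noncomputable def dev (β : ℝ) (ev : Fin N → ℝ) : ℝ :=
  ∫ U, |pr β ev U - mean β ev| ∂(haarP (OG N))

lemma cnt_perm (ev : Fin N → ℝ) (p : Equiv.Perm (Fin N)) (x : ℝ) :
    cntGe (fun i => ev (p i)) x = cntGe ev x ∧ cntLe (fun i => ev (p i)) x = cntLe ev x :=
  ⟨Finset.card_equiv p (by simp), Finset.card_equiv p (by simp)⟩

lemma dev_perm (β : ℝ) (ev : Fin N → ℝ) (p : Equiv.Perm (Fin N)) :
    dev β (fun i => ev (p i)) = dev β ev := by
  simp only [dev, mean_perm, pr_perm]
  exact integral_mul_left_eq_self (fun U => |pr β ev U - mean β ev|) _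

/-- The data shared by the estimates: the eigenvalues lie in `[-C, b + η]` and a fraction `m` of
them is at least `b - η`. -/
structure Edge (ev : Fin N → ℝ) (C b η m : ℝ) : Prop where
  abs_le : ∀ i, |ev i| ≤ C
  b_le : b ≤ C
  eta_nonneg : 0 ≤ η
  le_top : ∀ i, ev i ≤ b + η
  m_pos : 0 < m
  mass : m * N ≤ cntGe ev (b - η)

lemma Edge.perm {ev : Fin N → ℝ} {C b η m : ℝ} (h : Edge ev C b η m) (p : Equiv.Perm (Fin N)) :
    Edge (fun i => ev (p i)) C b η m :=
  ⟨fun i => h.abs_le _, h.b_le, h.eta_nonneg, fun i => h.le_top _, h.m_pos,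
    by rw [(cnt_perm ev p _).1]; exact h.mass⟩

/-- A shift by `j` places costs `O(j / N)`. -/
lemma shift_le {β : ℝ} (hβ : 0 ≤ β) {ev ev' : Fin N → ℝ} {C b η m δ : ℝ}
    (h : Edge ev C b η m) (hN : 0 < N) (j : ℕ) (hj : j < N) (hδ : 0 ≤ δ)
    (h' : ∀ i : Fin N, (∀ hi : i.val + j < N, ev' i ≤ ev ⟨i.val + j, hi⟩ + δ) ∧
      (N ≤ i.val + j → ev' i ≤ b + δ)) :
    mean β ev' ≤ mean β ev + β / 2 * (δ + 2 * η + 2 * C * j / (m * N)) := by
  haveI : NeZero N := ⟨by omega⟩
  set A : Finset (Fin N) := Finset.univ.filter fun i => i.val < j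
  set r := onSet A b ev with hr
  set B : Finset (Fin N) := Finset.univ.filter fun i => i.val < j ∨ b - η ≤ ev i with hB
  have step1 : mean β ev' ≤ mean β r + β / 2 * δ := by
    rw [← mean_perm β r (Equiv.addRight (⟨j, hj⟩ : Fin N))]
    refine mean_le_add hβ hδ fun i => ?_
    simp only [Equiv.coe_addRight, hr, onSet, A, Finset.mem_filter, Finset.mem_univ, true_and]
    have hv : ((i + ⟨j, hj⟩ : Fin N) : ℕ) = (i.val + j) % N := Fin.val_add _ _
    rcases Nat.lt_or_ge (i.val + j) N with hl | hl
    · rw [Nat.mod_eq_of_lt hl] at hv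
      rw [if_neg (by omega), show (i + ⟨j, hj⟩ : Fin N) = ⟨i.val + j, hl⟩ from Fin.ext hv]
      exact (h' i).1 hl
    · rw [Nat.mod_eq_sub_mod hl, Nat.mod_eq_of_lt (by omega)] at hv
      rw [if_pos (by omega)]
      exact (h' i).2 hl
  have hC : 0 ≤ C := le_trans (abs_nonneg _) (h.abs_le ⟨0, hN⟩)
  have hmB : m * N ≤ B.card := h.mass.trans (by
    exact_mod_cast Finset.card_le_card (fun i hi => by
      simp only [Finset.mem_filter, Finset.mem_univ, true_and, hB] at hi ⊢; exact Or.inr hi))
  have hmN : 0 < m * N := mul_pos h.m_pos (by exact_mod_cast hN)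
  have hBpos : (0 : ℝ) < B.card := hmN.trans_le hmB
  have hBne : B.Nonempty := Finset.card_pos.1 (by exact_mod_cast hBpos)
  set D := η + 2 * C * j / (m * N) with hD
  have hsum : ∑ i ∈ B, (b - ev i) ≤ D * B.card := by
    calc ∑ i ∈ B, (b - ev i) ≤ ∑ i ∈ B, (η + if i.val < j then 2 * C else 0) := by
          refine Finset.sum_le_sum fun i hi => ?_
          have := (abs_le.1 (h.abs_le i)).1
          have := h.b_le
          have := h.eta_nonneg
          simp only [hB, Finset.mem_filter, Finset.mem_univ, true_and] at hi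
          split_ifs with hij
          · linarith
          · rcases hi with hi | hi
            · exact absurd hi hij
            · linarith
      _ ≤ η * B.card + 2 * C * j := by
          rw [Finset.sum_add_distrib, Finset.sum_const, nsmul_eq_mul, mul_comm (B.card : ℝ),
            ← Finset.sum_filter, Finset.sum_const, nsmul_eq_mul, mul_comm _ (2 * C)]
          gcongr
          have := Finset.card_le_card_of_injOn (s := B.filter fun i => i.val < j)
            (t := Finset.range j) Fin.val
            (fun i hi => Finset.mem_range.2 (Finset.mem_filter.1 hi).2) Fin.val_injective.injOn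
          simpa using this
      _ = η * B.card + 2 * C * j / (m * N) * (m * N) := by rw [div_mul_cancel₀ _ hmN.ne']
      _ ≤ _ := by
          rw [hD, add_mul]
          gcongr
  have hD0 : 0 ≤ D := add_nonneg h.eta_nonneg (by positivity)
  have step2 : mean β r ≤ mean β (onSet B b ev) + β / 2 * η := by
    refine mean_le_add hβ h.eta_nonneg fun i => ?_
    have := h.le_top i
    have := h.eta_nonneg
    simp only [hr, onSet, A, hB, Finset.mem_filter, Finset.mem_univ, true_and]
    by_cases hij : i.val < j <;> by_cases hib : b - η ≤ ev i <;> simp [hij, hib] <;> linarith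
  have step3 := mean_raise hβ ev hBne hD0 hsum
  rw [hD] at step3
  linarith

lemma sorted_shift {ev ev' : Fin N → ℝ} (hs : Monotone ev) (hs' : Monotone ev') {k : ℕ} {δ : ℝ}
    (hcnt : ∀ t, cntLe ev t ≤ cntLe ev' (t + δ) + k) (i : Fin N) (hi : i.val + k < N) :
    ev' i ≤ ev ⟨i.val + k, hi⟩ + δ := by
  by_contra hc
  push Not at hc
  have h1 : i.val + k + 1 ≤ cntLe ev (ev ⟨i.val + k, hi⟩) := by
    have := Finset.card_le_card (s := Finset.Iic (⟨i.val + k, hi⟩ : Fin N))
      (t := Finset.univ.filter fun l => ev l ≤ ev ⟨i.val + k, hi⟩)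
      (fun l hl => by simpa using hs (Finset.mem_Iic.1 hl))
    simpa [cntLe] using this
  have h2 : cntLe ev' (ev ⟨i.val + k, hi⟩ + δ) ≤ i.val := by
    have := Finset.card_le_card
      (s := Finset.univ.filter fun l => ev' l ≤ ev ⟨i.val + k, hi⟩ + δ) (t := Finset.Iio i)
      (fun l hl => by
        rw [Finset.mem_Iio]
        by_contra hli
        exact absurd ((hs' (not_lt.1 hli)).trans (Finset.mem_filter.1 hl).2) (not_le.2 hc))
    simpa [cntLe] using this
  have := hcnt (ev ⟨i.val + k, hi⟩)
  omega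

/-- Two spectra with close counting functions. -/
lemma mean_cnt_le {β : ℝ} (hβ : 0 ≤ β) {ev ev' : Fin N → ℝ} {C b η m δ : ℝ}
    (h : Edge ev C b η m) (hN : 0 < N) {k : ℕ} (hk : k < N) (hδ : 0 ≤ δ)
    (htop : ∀ i, ev' i ≤ b + δ) (hcnt : ∀ t, cntLe ev t ≤ cntLe ev' (t + δ) + k) :
    mean β ev' ≤ mean β ev + β / 2 * (δ + 2 * η + 2 * C * k / (m * N)) := by
  rw [← mean_perm β ev' (Tuple.sort ev'), ← mean_perm β ev (Tuple.sort ev)]
  refine shift_le hβ (h.perm _) hN k hk hδ fun i => ⟨fun hi => ?_, fun _ => htop _⟩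
  refine sorted_shift (Tuple.monotone_sort ev) (Tuple.monotone_sort ev') (fun t => ?_) i hi
  simp only [Function.comp_def, (cnt_perm ev _ t).2, (cnt_perm ev' _ (t + δ)).2]
  exact hcnt t

lemma dev_sorted {β : ℝ} (hβ : 0 ≤ β) {ev : Fin N → ℝ} {C b η m : ℝ} (h : Edge ev C b η m)
    (hs : Monotone ev) {k : ℕ} (hk : 0 < k) (hkN : 2 * k < N) {t : ℝ} (ht : 0 < t) :
    dev β ev ≤ 24 * β ^ 2 * (C ^ 4 + (1 + 2 * C) ^ 2) * N / (k : ℝ) ^ 2 / (2 * t) + t / 2
      + β * (3 * η + 4 * C * k / (m * N)) := by
  have hN : 0 < N := by omega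
  have hC : 0 ≤ C := le_trans (abs_nonneg _) (h.abs_le ⟨0, hN⟩)
  set K := (N / k - 1) * k with hK
  have hq : 2 ≤ N / k := (Nat.le_div_iff_mul_le hk).2 hkN.le
  have hKk : K + k = N / k * k := by
    rw [hK, ← Nat.succ_mul, Nat.succ_eq_add_one, Nat.sub_add_cancel (by omega)]
  have hdm : N / k * k ≤ N := Nat.div_mul_le_self N k
  have hdm2 : N < N / k * k + k := by
    have := Nat.mod_add_div N k
    have := Nat.mod_lt N hk
    rw [mul_comm (N / k) k]; omega
  set e : Fin N → Fin N := fun i =>
    if hi : i.val < K then ⟨i.val / k * k + k - 1, by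
      have := Nat.div_mul_le_self i.val k
      omega⟩ else ⟨N - 1, by omega⟩ with he
  have he1 : ∀ i : Fin N, i ≤ e i := fun i => by
    rw [Fin.le_iff_val_le_val, he]
    have := Nat.mod_add_div i.val k
    have := Nat.mod_lt i.val hk
    have := mul_comm (i.val / k) k
    have := i.isLt
    dsimp only
    split <;> simp only <;> omega
  have he2 : ∀ i : Fin N, (e i).val < i.val + 2 * k := fun i => by
    rw [he]
    have := Nat.div_mul_le_self i.val k
    dsimp only
    split <;> simp only <;> omega
  set y := fun i => ev (e i) with hy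
  have hle : ∀ i, ev i ≤ y i := fun i => hs (he1 i)
  have hm1 : mean β y ≤ mean β ev + β / 2 * (3 * η + 4 * C * k / (m * N)) := by
    have := shift_le hβ h hN (2 * k) hkN h.eta_nonneg (ev' := y) fun i =>
      ⟨fun hi => by
        have := hs (show e i ≤ ⟨i.val + 2 * k, hi⟩ from Fin.le_iff_val_le_val.2 (he2 i).le)
        have := h.eta_nonneg
        simp only [hy]; linarith, fun _ => h.le_top _⟩
    push_cast at this
    refine this.trans (le_of_eq ?_)
    ring
  have hm0 : mean β ev ≤ mean β y :=
    integral_mono (integrable_pr β ev) (integrable_pr β y) fun U => pr_mono hβ hle U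
  have hvar : ∫ U, (pr β y U - mean β y) ^ 2 ∂(haarP (OG N))
      ≤ 24 * β ^ 2 * (C ^ 4 + (1 + 2 * C) ^ 2) * N / (k : ℝ) ^ 2 := by
    refine variance_le hβ (fun i => h.abs_le _) hC hk (K := K) (by omega)
      (fun i l hi hl => by simp [hy, he, show ¬ i.val < K by omega, show ¬ l.val < K by omega]) ?_
    intro i
    by_cases hi : i.val < K
    · have hlt : ∀ r, r < k → i.val / k * k + r < K := fun r hr => by
        have : i.val / k < N / k - 1 := by
          rw [Nat.div_lt_iff_lt_mul hk]; exact hi
        have : (i.val / k + 1) * k ≤ (N / k - 1) * k := Nat.mul_le_mul_right k (by omega)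
        rw [Nat.succ_mul] at this
        omega
      have h0 : ∀ r, r < k → (i.val / k * k + r) / k = i.val / k := fun r hr => by
        rw [mul_comm, Nat.mul_add_div hk, Nat.div_eq_of_lt hr, add_zero]
      have := Finset.card_le_card_of_injOn (s := (Finset.univ : Finset (Fin k)))
        (t := Finset.univ.filter fun j => y j = y i)
        (fun r => (⟨i.val / k * k + r.val, by have := hlt r r.isLt; omega⟩ : Fin N))
        (fun r _ => by
          simp [hy, he, hi, hlt r r.isLt, h0 r r.isLt])
        (fun r _ r' _ hrr => Fin.ext (by simpa using Fin.ext_iff.1 hrr))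
      simpa using this
    · have := Finset.card_le_card_of_injOn (s := (Finset.univ : Finset (Fin k)))
        (t := Finset.univ.filter fun j => y j = y i)
        (fun r => (⟨K + r.val, by omega⟩ : Fin N))
        (fun r _ => by simp [hy, he, hi, show ¬ K + r.val < K by omega])
        (fun r _ r' _ hrr => Fin.ext (by simpa using Fin.ext_iff.1 hrr))
      simpa using this
  have iy : Integrable (fun U => |pr β y U - mean β y|) (haarP (OG N)) :=
    ((integrable_pr β y).sub' (integrable_const _)).abs
  have i2 : Integrable (fun U => (pr β y U - mean β y) ^ 2) (haarP (OG N)) :=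
    integrable_of_continuous (((continuous_pr β y).fun_sub continuous_const).fun_pow 2)
  have hdev : dev β y ≤ (∫ U, (pr β y U - mean β y) ^ 2 ∂(haarP (OG N))) / (2 * t) + t / 2 := by
    refine (integral_mono iy ((i2.div_const _).fun_add (integrable_const _)) fun U => ?_).trans
      (le_of_eq ?_) (b := ∫ U, ((pr β y U - mean β y) ^ 2 / (2 * t) + t / 2) ∂(haarP (OG N)))
    · set x := pr β y U - mean β y
      have e0 : x ^ 2 / (2 * t) + t / 2 - |x| = (|x| - t) ^ 2 / (2 * t) := by
        rw [← sq_abs x]; field_simp; ring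
      have : 0 ≤ (|x| - t) ^ 2 / (2 * t) := by positivity
      show |x| ≤ _
      linarith
    · rw [integral_add (i2.div_const _) (integrable_const _), integral_div]; simp
  have hcmp : dev β ev ≤ dev β y + 2 * (mean β y - mean β ev) := by
    have ii : Integrable (fun U => pr β y U - pr β ev U) (haarP (OG N)) :=
      (integrable_pr β y).sub' (integrable_pr β ev)
    refine (integral_mono ((integrable_pr β ev).sub' (integrable_const _)).abs
      ((ii.fun_add iy).fun_add (integrable_const (mean β y - mean β ev))) fun U => ?_).trans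
      (le_of_eq ?_)
    · have := pr_mono hβ hle U
      simp only
      rw [abs_le]
      obtain ⟨l, u⟩ := abs_le.1 (le_refl |pr β y U - mean β y|)
      constructor <;> linarith
    · rw [integral_add (ii.fun_add iy) (integrable_const _), integral_add ii iy,
        integral_sub (integrable_pr β y) (integrable_pr β ev)]
      simp [dev, mean]
      ring
  have := div_le_div_of_nonneg_right hvar (show 0 ≤ 2 * t by positivity)
  linarith

lemma dev_le {β : ℝ} (hβ : 0 ≤ β) {ev : Fin N → ℝ} {C b η m : ℝ} (h : Edge ev C b η m)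
    {k : ℕ} (hk : 0 < k) (hkN : 2 * k < N) {t : ℝ} (ht : 0 < t) :
    dev β ev ≤ 24 * β ^ 2 * (C ^ 4 + (1 + 2 * C) ^ 2) * N / (k : ℝ) ^ 2 / (2 * t) + t / 2
      + β * (3 * η + 4 * C * k / (m * N)) := by
  rw [← dev_perm β ev (Tuple.sort ev)]
  exact dev_sorted hβ (h.perm _) (Tuple.monotone_sort ev) hk hkN ht

end Vale.Agent.P166
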