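import Vale.Agent.P166.Average

/-!
One increment: exposing one more row of the orthogonal matrix.
-/

namespace Vale.Agent.P166

open MeasureTheory Matrix

variable {N : ℕ}

lemma app_dot (W : OG N) (x y : Fin N → ℝ) : app W x ⬝ᵥ app W y = x ⬝ᵥ y := by
  rw [app, app, Matrix.dotProduct_mulVec, ← Matrix.mulVec_transpose, Matrix.mulVec_mulVec,
    transpose_mul_self, Matrix.one_mulVec]

lemma app_add (U : OG N) (x y : Fin N → ℝ) : app U (x + y) = app U x + app U y :=
  Matrix.mulVec_add _ _ _

lemma app_sub (U : OG N) (x y : Fin N → ℝ) : app U (x - y) = app U x - app U y :=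
  Matrix.mulVec_sub _ _ _

lemma app_smul (U : OG N) (c : ℝ) (x : Fin N → ℝ) : app U (c • x) = c • app U x :=
  Matrix.mulVec_smul _ _ _

lemma ext_app {U V : OG N} (h : ∀ x, app U x = app V x) : U = V :=
  Subtype.ext (Matrix.mulVec_injective (funext h))

lemma app_refl_eq (h x : Fin N → ℝ) :
    app (refl h) x = x - (2 / (h ⬝ᵥ h) * (h ⬝ᵥ x)) • h := by
  funext i; simp [app_refl]

lemma app_conj_refl (W : OG N) (h y : Fin N → ℝ) :
    app W (app (refl h) y) = app (refl (app W h)) (app W y) := by
  simp [app_refl_eq, app_sub, app_smul, app_dot]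

/-- Row `k`. -/
def row (k : Fin N) (V : OG N) : Fin N → ℝ := (V : Matrix (Fin N) (Fin N) ℝ) k

lemma app_eq_row (k : Fin N) (V : OG N) (x : Fin N → ℝ) : app V x k = row k V ⬝ᵥ x := rfl

lemma row_dot (k : Fin N) (V : OG N) : row k V ⬝ᵥ row k V = 1 := by
  simpa [dotProduct, row, sq] using row_sq V k

lemma row_mul (k : Fin N) (V W : OG N) :
    row k (V * W) = row k V ᵥ* (W : Matrix (Fin N) (Fin N) ℝ) := by
  funext j; simp [row, Matrix.mul_apply, Matrix.vecMul, dotProduct]

lemma row_mul_inv (k : Fin N) (V W : OG N) : row k (V * W⁻¹) = app W (row k V) := by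
  funext j
  simp [row, Matrix.mul_apply, app, Matrix.mulVec, dotProduct, mul_comm]

lemma refl_symm (h : Fin N → ℝ) :
    ((refl h : OG N) : Matrix (Fin N) (Fin N) ℝ)ᵀ = (refl h : OG N) := by
  simp [refl, reflM, Matrix.transpose_vecMulVec]

lemma row_mul_refl (k : Fin N) (V : OG N) (h : Fin N → ℝ) :
    row k (V * refl h) = app (refl h) (row k V) := by
  rw [row_mul, app, ← Matrix.vecMul_transpose, refl_symm]

/-- The reflection vector sending a unit `a` to a multiple of the `k`-th coordinate vector. -/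
noncomputable def hv (k : Fin N) (a : Fin N → ℝ) : Fin N → ℝ :=
  if a k ≤ 0 then Pi.single k 1 - a else Pi.single k 1 + a

lemma hv_sq (k : Fin N) {a : Fin N → ℝ} (ha : a ⬝ᵥ a = 1) :
    hv k a ⬝ᵥ hv k a = 2 + 2 * |a k| := by
  unfold hv
  split_ifs with h
  · simp [sub_dotProduct, dotProduct_sub, ha, abs_of_nonpos h]; ring
  · simp [add_dotProduct, dotProduct_add, ha, abs_of_pos (not_le.1 h)]; ring

lemma refl_hv (k : Fin N) {a : Fin N → ℝ} (ha : a ⬝ᵥ a = 1) :
    app (refl (hv k a)) a = if a k ≤ 0 then Pi.single k 1 else -Pi.single k 1 := by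
  have inv : ∀ h x : Fin N → ℝ, app (refl h) (app (refl h) x) = x := fun h x => by
    rw [← app_mul, refl_mul_self, app_one]
  unfold hv
  split_ifs with h
  · have := app_refl_exchange (e := Pi.single k 1) (a := a) (by simp [ha])
    exact (congrArg (app (refl (Pi.single k 1 - a))) this).symm.trans (inv _ _)
  · have := app_refl_exchange (e := Pi.single k 1) (a := -a) (by simp [ha])
    rw [sub_neg_eq_add] at this
    have hb : app (refl (Pi.single k 1 + a)) a
        = -app (refl (Pi.single k 1 + a)) (-a) := by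
      rw [← neg_one_smul ℝ a, app_smul]; simp
    rw [hb, (congrArg (app (refl (Pi.single k 1 + a))) this).symm.trans (inv _ _)]

lemma app_hv {S : Finset (Fin N)} {W : OG N} (hW : W ∈ fixS S) {k : Fin N} (hk : k ∉ S)
    (a : Fin N → ℝ) : app W (hv k a) = hv k (app W a) := by
  have he : app W (Pi.single k 1) = Pi.single k 1 := by
    funext i
    simp only [app, Matrix.mulVec_single, MulOpposite.op_one, one_smul]
    by_cases hi : i = k
    · subst hi; simp [Matrix.col, mem_fixS.1 hW i hk i]
    · simp [Matrix.col, fixS_col hW hk hi, hi]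
  simp only [hv, app_fixS hW a hk]
  split_ifs <;> simp [app_sub, app_add, he]

lemma hv_support {S : Finset (Fin N)} {k : Fin N} (hk : k ∈ S) {V : OG N} (hV : V ∈ fixS S)
    {i : Fin N} (hi : i ∉ S) : hv k (row k V) i = 0 := by
  have hne : i ≠ k := fun h => hi (h ▸ hk)
  have : row k V i = 0 := fixS_col hV hi (Ne.symm hne)
  unfold hv
  split_ifs <;> simp [hne, this]

lemma pr_congr_sq (β : ℝ) (ev : Fin N → ℝ) {U U' : OG N}
    (h : ∀ σ i, app U (spin σ) i ^ 2 = app U' (spin σ) i ^ 2) : pr β ev U = pr β ev U' := by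
  simp only [pr_eq, eng, h]

/-- The flip of coordinate `k`. -/
noncomputable def flipU (k : Fin N) : OG N := refl (Pi.single k 1)

lemma app_flip (k : Fin N) (x : Fin N → ℝ) (i : Fin N) :
    app (flipU k) x i = if i = k then -x i else x i := by
  rw [flipU, app_refl]
  by_cases h : i = k
  · subst h; simp; ring
  · simp [h]

lemma pr_fix_flip (β : ℝ) (ev : Fin N → ℝ) {S : Finset (Fin N)} {W : OG N} (hW : W ∈ fixS S)
    {k : Fin N} (hk : k ∉ S) (U : OG N) : pr β ev (W * (flipU k * U)) = pr β ev (W * U) := by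
  refine pr_congr_sq β ev fun σ i => ?_
  simp only [app_mul]
  set y := app U (spin σ)
  by_cases hi : i = k
  · subst hi; simp [app_fixS hW _ hk, app_flip]
  · congr 1
    rw [app_eq_row, app_eq_row]
    simp only [dotProduct]
    refine Finset.sum_congr rfl fun j _ => ?_
    by_cases hj : j = k
    · subst hj; simp [row, fixS_col hW hk hi]
    · simp [app_flip, hj]

/-- Exposing row `k` is a reflection, up to the smaller stabiliser. -/
lemma avg_row (β : ℝ) (ev : Fin N → ℝ) {S S' : Finset (Fin N)} {k : Fin N} (hk : k ∈ S)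
    (hS' : ∀ i, i ∈ S' ↔ i ∈ S ∧ i ≠ k) {V : OG N} (hV : V ∈ fixS S) (U : OG N) :
    avgS S' (pr β ev) (V * U) = avgS S' (pr β ev) (refl (hv k (row k V)) * U) := by
  set R := refl (hv k (row k V))
  have hR : R ∈ fixS S := refl_mem fun i hi => hv_support hk hV hi
  set W := V * R with hWdef
  have hWS : W ∈ fixS S := mul_mem hV hR
  have hrow : row k W = if row k V k ≤ 0 then Pi.single k 1 else -Pi.single k 1 := by
    rw [hWdef, row_mul_refl, refl_hv k (row_dot k V)]
  have hkS' : k ∉ S' := fun h => ((hS' k).1 h).2 rfl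
  have hVU : V * U = W * (R * U) := by
    rw [hWdef, mul_assoc, ← mul_assoc R, refl_mul_self, one_mul]
  have hmem : ∀ X : OG N, X ∈ fixS S → row k X = Pi.single k 1 → X ∈ fixS S' := by
    intro X hX hr
    refine mem_fixS.2 fun i hi j => ?_
    by_cases hik : i = k
    · subst hik
      change row i X j = _
      rw [hr]; simp [Pi.single_apply, eq_comm]
    · exact mem_fixS.1 hX i (fun h => hi ((hS' i).2 ⟨h, hik⟩)) j
  rw [hVU]
  split_ifs at hrow with h
  · exact avgS_inv (hmem W hWS hrow) _
  · have hfl : flipU k ∈ fixS S := refl_mem fun i hi => by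
      simp [show i ≠ k from fun h => hi (h ▸ hk)]
    have hflip : row k (flipU k * W) = Pi.single k 1 := by
      funext j
      have e : ∀ x, app (flipU k * W) x k = -app W x k := fun x => by
        rw [app_mul, app_flip, if_pos rfl]
      have := e (Pi.single j 1)
      simp only [app_eq_row, dotProduct_single, mul_one] at this
      rw [this, hrow]; simp
    have hflip2 : W = flipU k * (flipU k * W) := by
      rw [← mul_assoc, flipU, refl_mul_self, one_mul]
    have hfix : ∀ X, avgS S' (pr β ev) (flipU k * X) = avgS S' (pr β ev) X := fun X =>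
      integral_congr_ae (Filter.Eventually.of_forall fun W' => pr_fix_flip β ev W'.2 hkS' X)
    rw [hflip2, mul_assoc (flipU k), hfix]
    exact avgS_inv (hmem _ (mul_mem hfl hWS) hflip) _

lemma pr_conj (β : ℝ) (ev : Fin N → ℝ) (W U : OG N) (h : Fin N → ℝ) :
    pr β ev (W * (refl h * U)) = pr β ev (refl (app W h) * (W * U)) := by
  refine pr_congr_sq β ev fun σ i => ?_
  simp only [app_mul, app_conj_refl]

/-- The squared change of the pressure under the reflection attached to row `k` of `V`. -/
noncomputable def jump (β : ℝ) (ev : Fin N → ℝ) (k : Fin N) (V U : OG N) : ℝ :=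
  (pr β ev (refl (hv k (row k V)) * U) - pr β ev U) ^ 2

lemma continuous_row (k : Fin N) : Continuous (row k : OG N → Fin N → ℝ) :=
  continuous_pi fun i => continuous_entry k i

lemma measurable_jump (β : ℝ) (ev : Fin N → ℝ) (k : Fin N) :
    Measurable fun p : OG N × OG N => jump β ev k p.1 p.2 := by
  have hh : Measurable fun p : OG N × OG N => hv k (row k p.1) := by
    have hm : Measurable (hv k) := by
      refine Measurable.ite (measurableSet_le (measurable_pi_apply k) measurable_const) ?_ ?_
      · fun_prop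
      · fun_prop
    exact hm.comp ((continuous_row k).measurable.comp measurable_fst)
  have hu : ∀ σ, Measurable fun p : OG N × OG N => app p.2 (spin σ) := fun σ =>
    (continuous_app (spin σ)).measurable.comp measurable_snd
  simp only [jump, pr_eq, app_mul, app_refl_eq, lse, eng, dotProduct, Pi.sub_apply, Pi.smul_apply]
  fun_prop

lemma abs_pr_le {β : ℝ} (hβ : 0 ≤ β) {ev : Fin N → ℝ} {C : ℝ} (hC : ∀ i, |ev i| ≤ C)
    (hC0 : 0 ≤ C) (U : OG N) : |pr β ev U| ≤ β / 2 * C := by
  have h0 : pr β (fun _ : Fin N => (0 : ℝ)) U = 0 := by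
    rw [pr_eq]; simp [lse, eng]
  have h1 := pr_le_add hβ hC0 (ev := ev) (ev' := fun _ => 0)
    (fun i => by linarith [(abs_le.1 (hC i)).2]) U
  have h2 := pr_le_add hβ hC0 (ev := fun _ => 0) (ev' := ev)
    (fun i => by linarith [(abs_le.1 (hC i)).1]) U
  rw [h0] at h1 h2
  rw [abs_le]; constructor <;> linarith

lemma integrable_jump {β : ℝ} (hβ : 0 ≤ β) {ev : Fin N → ℝ} {C : ℝ} (hC : ∀ i, |ev i| ≤ C)
    (hC0 : 0 ≤ C) (k : Fin N) {A : Type} [MeasurableSpace A] (μ : Measure A) [IsFiniteMeasure μ]
    {p : A → OG N × OG N} (hp : Measurable p) :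
    Integrable (fun x => jump β ev k (p x).1 (p x).2) μ := by
  refine Integrable.of_bound ((measurable_jump β ev k).comp hp).aestronglyMeasurable
    ((β * C) ^ 2) (Filter.Eventually.of_forall fun x => ?_)
  rw [Real.norm_eq_abs, jump, abs_sq]
  have a := abs_le.1 (abs_pr_le hβ hC hC0 (refl (hv k (row k (p x).1)) * (p x).2))
  have b := abs_le.1 (abs_pr_le hβ hC hC0 (p x).2)
  apply sq_le_sq' <;> linarith

lemma sq_integral_le {A : Type} [MeasurableSpace A] {μ : Measure A} [IsProbabilityMeasure μ]
    {f : A → ℝ} (h1 : Integrable f μ) (h2 : Integrable (fun x => f x ^ 2) μ) :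
    (∫ x, f x ∂μ) ^ 2 ≤ ∫ x, f x ^ 2 ∂μ := by
  set c := ∫ x, f x ∂μ with hc
  have h := integral_mono (f := fun x => 2 * c * f x - c ^ 2)
    ((h1.const_mul _).sub' (integrable_const _)) h2 fun x => by nlinarith [sq_nonneg (f x - c)]
  rw [integral_sub (h1.const_mul _) (integrable_const _), integral_const_mul, ← hc] at h
  simp at h
  linarith

/-- The increment is controlled by the jumps. -/
lemma increment_le {β : ℝ} (hβ : 0 ≤ β) {ev : Fin N → ℝ} {C : ℝ} (hC : ∀ i, |ev i| ≤ C)
    (hC0 : 0 ≤ C) {S S' : Finset (Fin N)} {k : Fin N} (hk : k ∈ S)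
    (hS' : ∀ i, i ∈ S' ↔ i ∈ S ∧ i ≠ k) :
    ∫ U, ∫ V : fixS S, (avgS S' (pr β ev) ((V : OG N) * U) - avgS S' (pr β ev) U) ^ 2
        ∂(haarP (fixS S)) ∂(haarP (OG N))
      ≤ ∫ V : fixS S, ∫ U, jump β ev k (V : OG N) U ∂(haarP (OG N)) ∂(haarP (fixS S)) := by
  have hsub : S' ⊆ S := fun i hi => ((hS' i).1 hi).1
  have hkS' : k ∉ S' := fun h => ((hS' k).1 h).2 rfl
  have hc := continuous_pr β ev
  set P := (haarP (fixS S)).prod (haarP (fixS S')) with hP
  have hp : Measurable fun z : OG N × (fixS S × fixS S') =>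
      (((z.2.1 : OG N) * (z.2.2 : OG N)⁻¹, (z.2.2 : OG N) * z.1) : OG N × OG N) := by
    refine Measurable.prodMk ?_ ?_
    · exact ((continuous_subtype_val.comp (continuous_fst.comp continuous_snd)).mul
        (continuous_subtype_val.comp (continuous_snd.comp continuous_snd)).inv).measurable
    · exact ((continuous_subtype_val.comp (continuous_snd.comp continuous_snd)).mul
        continuous_fst).measurable
  have hint := integrable_jump hβ hC hC0 k ((haarP (OG N)).prod P) hp
  have hpt : ∀ (U : OG N) (V : fixS S),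
      (avgS S' (pr β ev) ((V : OG N) * U) - avgS S' (pr β ev) U) ^ 2
        ≤ ∫ W : fixS S', jump β ev k ((V : OG N) * (W : OG N)⁻¹) ((W : OG N) * U)
          ∂(haarP (fixS S')) := by
    intro U V
    have hW : ∀ X : OG N, Continuous fun W : fixS S' => pr β ev ((W : OG N) * X) := fun X =>
      hc.comp (continuous_subtype_val.mul continuous_const)
    rw [avg_row β ev hk hS' V.2 U]
    set R := refl (hv k (row k (V : OG N)))
    simp only [avgS]
    rw [← integral_sub (integrable_of_continuous (hW _)) (integrable_of_continuous (hW _))]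
    refine (sq_integral_le (integrable_of_continuous ((hW (R * U)).fun_sub (hW U)))
      (integrable_of_continuous (((hW (R * U)).fun_sub (hW U)).fun_pow 2))).trans (le_of_eq ?_)
    refine integral_congr_ae (Filter.Eventually.of_forall fun W => ?_)
    simp only [jump, R, pr_conj, app_hv W.2 hkS', row_mul_inv]
  have hmid : ∀ U : OG N, ∫ V : fixS S,
      (avgS S' (pr β ev) ((V : OG N) * U) - avgS S' (pr β ev) U) ^ 2 ∂(haarP (fixS S))
      ≤ ∫ z : fixS S × fixS S', jump β ev k ((z.1 : OG N) * (z.2 : OG N)⁻¹) ((z.2 : OG N) * U)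
        ∂P := by
    intro U
    have i2 := integrable_jump hβ hC hC0 k P
      (p := fun z : fixS S × fixS S' => (((z.1 : OG N) * (z.2 : OG N)⁻¹, (z.2 : OG N) * U) : OG N × OG N))
      (hp.comp (measurable_const.prodMk measurable_id))
    rw [hP, integral_prod _ i2]
    exact integral_mono_of_nonneg (Filter.Eventually.of_forall fun V => sq_nonneg _)
      i2.integral_prod_left (Filter.Eventually.of_forall (hpt U))
  refine (integral_mono_of_nonneg
    (Filter.Eventually.of_forall fun U => integral_nonneg fun V => sq_nonneg _)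
    hint.integral_prod_left (Filter.Eventually.of_forall hmid)).trans (le_of_eq ?_)
  rw [← integral_prod _ hint, integral_prod_symm _ hint]
  rw [integral_congr_ae (Filter.Eventually.of_forall fun y : fixS S × fixS S' =>
    integral_mul_left_eq_self (μ := haarP (OG N))
      (fun X => jump β ev k ((y.1 : OG N) * (y.2 : OG N)⁻¹) X) (y.2 : OG N))]
  have hp2 : Measurable fun z : (fixS S × fixS S') × OG N =>
      (((z.1.1 : OG N) * (z.1.2 : OG N)⁻¹, z.2) : OG N × OG N) :=
    ((hp.comp ((measurable_const (a := (1 : OG N))).prodMk measurable_fst)).fst).prodMk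
      measurable_snd
  have i3 := (integrable_jump hβ hC hC0 k (P.prod (haarP (OG N))) hp2).integral_prod_left
  simp only at i3
  rw [hP, integral_prod_symm _ i3]
  have : ∀ W : fixS S', ∫ V : fixS S, ∫ U, jump β ev k ((V : OG N) * (W : OG N)⁻¹) U
      ∂(haarP (OG N)) ∂(haarP (fixS S))
      = ∫ V : fixS S, ∫ U, jump β ev k (V : OG N) U ∂(haarP (OG N)) ∂(haarP (fixS S)) := by
    intro W
    exact integral_mul_right_eq_self (μ := haarP (fixS S))
      (fun V : fixS S => ∫ U, jump β ev k (V : OG N) U ∂(haarP (OG N))) ⟨(W : OG N)⁻¹,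
        inv_mem (fixS_mono hsub W.2)⟩
  simp [this]

end Vale.Agent.P166
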