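import Vale.Agent.P166.Step

/-!
The variance of the pressure when every eigenvalue has large multiplicity.
-/

namespace Vale.Agent.P166

open MeasureTheory Matrix

variable {N : ℕ}

/-- Gibbs weight of a configuration. -/
noncomputable def gw (β : ℝ) (ev : Fin N → ℝ) (U : OG N) (σ : Fin N → Bool) : ℝ :=
  gib (fun τ => eng β ev (app U (spin τ))) σ

lemma continuous_gw (β : ℝ) (ev : Fin N → ℝ) (σ : Fin N → Bool) :
    Continuous fun U => gw β ev U σ := by
  unfold gw gib
  exact (Real.continuous_exp.comp (continuous_eng_app β ev _)).div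
    (continuous_finsetSum _ fun τ _ => Real.continuous_exp.comp (continuous_eng_app β ev _))
    fun U => (sum_exp_pos _).ne'

/-- Squared energy shift under a left multiplication, averaged over the Gibbs weights. -/
noncomputable def dsq (β : ℝ) (ev : Fin N → ℝ) (R U : OG N) : ℝ :=
  ∑ σ, gw β ev U σ * (eng β ev (app (R * U) (spin σ)) - eng β ev (app U (spin σ))) ^ 2

lemma continuous_dsq (β : ℝ) (ev : Fin N → ℝ) (R : OG N) : Continuous (dsq β ev R) := by
  unfold dsq
  exact continuous_finsetSum _ fun σ _ => (continuous_gw β ev σ).mul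
    ((((continuous_eng_app β ev (spin σ)).comp (continuous_const_mul R)).sub
      (continuous_eng_app β ev (spin σ))).pow 2)

lemma sq_pr_diff (β : ℝ) (ev : Fin N → ℝ) {R : OG N} (hR : R * R = 1) (U : OG N) :
    (pr β ev (R * U) - pr β ev U) ^ 2
      ≤ (1 / (N : ℝ)) ^ 2 * (dsq β ev R U + dsq β ev R (R * U)) := by
  set a : (Fin N → Bool) → ℝ := fun σ => eng β ev (app U (spin σ))
  set b : (Fin N → Bool) → ℝ := fun σ => eng β ev (app (R * U) (spin σ))
  have h1 := lse_tangent a b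
  have h2 := lse_tangent b a
  set x := ∑ σ, gib a σ * (b σ - a σ)
  set y := ∑ σ, gib b σ * (a σ - b σ)
  have jen : ∀ c d : (Fin N → Bool) → ℝ,
      (∑ σ, gib c σ * d σ) ^ 2 ≤ ∑ σ, gib c σ * d σ ^ 2 := by
    intro c d
    set m := ∑ σ, gib c σ * d σ with hm
    have h := Finset.sum_nonneg fun σ (_ : σ ∈ (Finset.univ : Finset (Fin N → Bool))) =>
      mul_nonneg (gib_nonneg c σ) (sq_nonneg (d σ - m))
    have e : ∀ σ, gib c σ * (d σ - m) ^ 2
        = gib c σ * d σ ^ 2 - 2 * m * (gib c σ * d σ) + m ^ 2 * gib c σ := fun σ => by ring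
    simp only [e, Finset.sum_add_distrib, Finset.sum_sub_distrib, ← Finset.mul_sum, sum_gib,
      ← hm] at h
    linarith
  have hR2 : R * (R * U) = U := by rw [← mul_assoc, hR, one_mul]
  have hx : x ^ 2 ≤ dsq β ev R U := jen a fun σ => b σ - a σ
  have hy : y ^ 2 ≤ dsq β ev R (R * U) := by
    refine (jen b fun σ => a σ - b σ).trans (le_of_eq ?_)
    simp only [dsq, gw, hR2, a, b]
  rw [pr_eq, pr_eq]
  change (lse b - lse a) ^ 2 ≤ _
  set n := 1 / (N : ℝ)
  have hn : 0 ≤ n ^ 2 := sq_nonneg _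
  rcases le_total 0 (lse b - lse a) with hd | hd
  · calc (lse b - lse a) ^ 2 ≤ (n * y) ^ 2 := by
          rw [← neg_sq (n * y)]; exact pow_le_pow_left₀ hd (by linarith) 2
      _ ≤ _ := by nlinarith [mul_le_mul_of_nonneg_left hy hn,
          mul_nonneg hn (le_trans (sq_nonneg x) hx)]
  · calc (lse b - lse a) ^ 2 ≤ (n * x) ^ 2 := by
          rw [← neg_sq (n * x), ← neg_sq (lse b - lse a)]
          exact pow_le_pow_left₀ (by linarith) (by linarith) 2
      _ ≤ _ := by nlinarith [mul_le_mul_of_nonneg_left hx hn,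
          mul_nonneg hn (le_trans (sq_nonneg y) hy)]

/-- The polynomial dominating the squared energy shift. -/
noncomputable def dom (C β : ℝ) (ev : Fin N → ℝ) (k : Fin N) (V : OG N) (v : Fin N → ℝ) : ℝ :=
  4 * β ^ 2 * ((C ^ 4 + (1 + 2 * C) ^ 2) * v k ^ 4 + (1 + 2 * C) ^ 2 * app V v k ^ 4
    + app V (fun i => ev i * v i) k ^ 4)

lemma eng_shift_sq (β : ℝ) {ev : Fin N → ℝ} {C : ℝ} (hC : ∀ i, |ev i| ≤ C) (hC0 : 0 ≤ C)
    (k : Fin N) (V : OG N) (v : Fin N → ℝ) :
    (eng β ev (app (refl (hv k (row k V))) v) - eng β ev v) ^ 2 ≤ dom C β ev k V v := by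
  set h := hv k (row k V) with hh
  have hsq := hv_sq k (row_dot k V)
  rw [← hh] at hsq
  have hh2 : 2 ≤ h ⬝ᵥ h := by rw [hsq]; linarith [abs_nonneg (row k V k)]
  set c := 2 / (h ⬝ᵥ h) with hc
  have hc0 : 0 ≤ c := by positivity
  have hc1 : c ≤ 1 := (div_le_one (by linarith)).2 hh2
  set t := h ⬝ᵥ v with ht
  set s := h ⬝ᵥ fun i => ev i * v i with hs
  set Q := ∑ i, ev i * h i ^ 2 with hQ
  have hd : eng β ev (app (refl h) v) - eng β ev v
      = β / 2 * (-(2 * c * t * s) + c ^ 2 * t ^ 2 * Q) := by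
    have e : ∀ i, ev i * (v i - c * t * h i) ^ 2
        = ev i * v i ^ 2 + (-(2 * c * t)) * (h i * (ev i * v i)) + c ^ 2 * t ^ 2 * (ev i * h i ^ 2) :=
      fun i => by ring
    simp only [eng, app_refl, ← hc, ← ht, e, Finset.sum_add_distrib, ← Finset.mul_sum, ← hQ,
      show ∑ i, h i * (ev i * v i) = s from rfl]
    ring
  have hQb : |c ^ 2 * Q| ≤ 2 * C := by
    have hQ2 : |Q| ≤ C * (h ⬝ᵥ h) := by
      refine (Finset.abs_sum_le_sum_abs _ _).trans ?_
      rw [dotProduct, Finset.mul_sum]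
      refine Finset.sum_le_sum fun i _ => ?_
      rw [abs_mul, abs_sq, sq]
      exact mul_le_mul_of_nonneg_right (hC i) (mul_self_nonneg _)
    rw [abs_mul, abs_sq]
    calc c ^ 2 * |Q| ≤ c ^ 2 * (C * (h ⬝ᵥ h)) := mul_le_mul_of_nonneg_left hQ2 (sq_nonneg _)
      _ = 2 * c * C := by rw [hc]; field_simp
      _ ≤ 2 * C := by nlinarith
  have hz : |-(2 * c * t * s) + c ^ 2 * t ^ 2 * Q| ≤ s ^ 2 + (1 + 2 * C) * t ^ 2 := by
    refine (abs_add_le _ _).trans ?_
    rw [abs_neg]
    have a : |2 * c * t * s| ≤ s ^ 2 + t ^ 2 := by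
      rw [show 2 * c * t * s = c * (2 * t * s) by ring, abs_mul, abs_of_nonneg hc0]
      refine (mul_le_of_le_one_left (abs_nonneg _) hc1).trans ?_
      rw [abs_le]
      constructor <;> nlinarith [sq_nonneg (t - s), sq_nonneg (t + s)]
    have b : |c ^ 2 * t ^ 2 * Q| ≤ 2 * C * t ^ 2 := by
      rw [show c ^ 2 * t ^ 2 * Q = c ^ 2 * Q * t ^ 2 by ring, abs_mul, abs_sq]
      exact mul_le_mul_of_nonneg_right hQb (sq_nonneg _)
    linarith
  have f4 : ∀ p q : ℝ, (p + q) ^ 4 ≤ 8 * (p ^ 4 + q ^ 4) := fun p q => by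
    nlinarith [sq_nonneg (p - q), sq_nonneg (p + q), sq_nonneg (p ^ 2 - q ^ 2),
      mul_nonneg (sq_nonneg (p - q)) (sq_nonneg (p - q))]
  have hk : ∀ w : Fin N → ℝ, (h ⬝ᵥ w) ^ 4 ≤ 8 * (w k ^ 4 + app V w k ^ 4) := by
    intro w
    rw [hh, hv, app_eq_row]
    split_ifs
    · simp only [sub_dotProduct, single_dotProduct, one_mul]
      have := f4 (w k) (-(row k V ⬝ᵥ w))
      rwa [← sub_eq_add_neg, (show Even 4 by decide).neg_pow] at this
    · simp only [add_dotProduct, single_dotProduct, one_mul]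
      exact f4 _ _
  have hek : (ev k * v k) ^ 4 ≤ C ^ 4 * v k ^ 4 := by
    rw [mul_pow]
    refine mul_le_mul_of_nonneg_right ?_ ((show Even 4 by decide).pow_nonneg _)
    rw [← (show Even 4 by decide).pow_abs (ev k)]
    exact pow_le_pow_left₀ (abs_nonneg _) (hC k) 4
  rw [hd, mul_pow]
  calc (β / 2) ^ 2 * (-(2 * c * t * s) + c ^ 2 * t ^ 2 * Q) ^ 2
      ≤ (β / 2) ^ 2 * (2 * (s ^ 4 + (1 + 2 * C) ^ 2 * t ^ 4)) := by
        refine mul_le_mul_of_nonneg_left ?_ (sq_nonneg _)
        obtain ⟨l, u⟩ := abs_le.1 hz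
        nlinarith [sq_le_sq' l u, sq_nonneg (s ^ 2 - (1 + 2 * C) * t ^ 2)]
    _ ≤ (β / 2) ^ 2 * (2 * (8 * ((ev k * v k) ^ 4 + app V (fun i => ev i * v i) k ^ 4)
          + (1 + 2 * C) ^ 2 * (8 * (v k ^ 4 + app V v k ^ 4)))) := by
        refine mul_le_mul_of_nonneg_left (mul_le_mul_of_nonneg_left (add_le_add (hk _)
          (mul_le_mul_of_nonneg_left (hk v) (sq_nonneg _))) (by norm_num)) (sq_nonneg _)
    _ ≤ (β / 2) ^ 2 * (2 * (8 * (C ^ 4 * v k ^ 4 + app V (fun i => ev i * v i) k ^ 4)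
          + (1 + 2 * C) ^ 2 * (8 * (v k ^ 4 + app V v k ^ 4)))) := by
        gcongr
    _ = dom C β ev k V v := by unfold dom; ring

lemma continuous_domg (C β : ℝ) (ev : Fin N → ℝ) (k : Fin N) :
    Continuous fun p : OG N × OG N =>
      ∑ σ, gw β ev p.2 σ * dom C β ev k p.1 (app p.2 (spin σ)) := by
  refine continuous_finsetSum _ fun σ _ => ((continuous_gw β ev σ).comp continuous_snd).mul ?_
  have hv' : Continuous fun p : OG N × OG N => app p.2 (spin σ) :=
    (continuous_app _).comp continuous_snd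
  have hA : ∀ g : OG N × OG N → Fin N → ℝ, Continuous g →
      Continuous fun p : OG N × OG N => app p.1 (g p) k := fun g hg => by
    unfold app Matrix.mulVec dotProduct
    exact continuous_finsetSum _ fun j _ =>
      ((continuous_entry k j).comp continuous_fst).mul ((continuous_apply j).comp hg)
  have h2 : Continuous fun p : OG N × OG N => fun i => ev i * app p.2 (spin σ) i :=
    continuous_pi fun i => continuous_const.mul ((continuous_apply i).comp hv')
  unfold dom
  exact continuous_const.mul (((continuous_const.mul (((continuous_apply k).comp hv').pow 4)).add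
    (continuous_const.mul ((hA _ hv').pow 4))).add ((hA _ h2).pow 4))

lemma dsq_le (β : ℝ) {ev : Fin N → ℝ} {C : ℝ} (hC : ∀ i, |ev i| ≤ C) (hC0 : 0 ≤ C)
    (k : Fin N) (V U : OG N) :
    dsq β ev (refl (hv k (row k V))) U ≤ ∑ σ, gw β ev U σ * dom C β ev k V (app U (spin σ)) := by
  refine Finset.sum_le_sum fun σ _ => mul_le_mul_of_nonneg_left ?_ (gib_nonneg _ _)
  rw [app_mul]
  exact eng_shift_sq β hC hC0 k V _

lemma spin_sq (U : OG N) (σ : Fin N → Bool) : ∑ i, app U (spin σ) i ^ 2 = N := by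
  rw [sum_sq_app]; simp [spin]

lemma eng_fix (β : ℝ) {ev : Fin N → ℝ} {B : Finset (Fin N)} {c : ℝ} (hB : ∀ i ∈ B, ev i = c)
    {W : OG N} (hW : W ∈ fixS B) (v : Fin N → ℝ) : eng β ev (app W v) = eng β ev v := by
  unfold eng
  congr 1
  rw [← Finset.sum_add_sum_compl B, ← Finset.sum_add_sum_compl B (fun i => ev i * v i ^ 2),
    Finset.sum_congr rfl (s₁ := B) fun i hi => by rw [hB i hi],
    Finset.sum_congr rfl (s₁ := B) (f := fun i => ev i * v i ^ 2) fun i hi => by rw [hB i hi],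
    ← Finset.mul_sum, ← Finset.mul_sum, sum_sq_app_fixS hW,
    Finset.sum_congr rfl (s₁ := Bᶜ) fun i hi => by rw [app_fixS hW v (Finset.mem_compl.1 hi)]]

/-- Gibbs-averaged fourth moments are spread over a degenerate block. -/
lemma gibbs_four (β : ℝ) {ev : Fin N → ℝ} {k : Fin N} {B : Finset (Fin N)} (hkB : k ∈ B)
    (hB : ∀ i ∈ B, ev i = ev k) :
    ∫ U, ∑ σ, gw β ev U σ * app U (spin σ) k ^ 4 ∂(haarP (OG N))
      ≤ 3 * (N : ℝ) ^ 2 / (B.card : ℝ) ^ 2 := by
  set Φ : OG N → ℝ := fun U => ∑ σ, gw β ev U σ * app U (spin σ) k ^ 4 with hΦ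
  have hΦc : Continuous Φ := continuous_finsetSum _ fun σ _ =>
    (continuous_gw β ev σ).mul (((continuous_apply k).comp (continuous_app _)).pow 4)
  rw [← integral_avgS (S := B) hΦc]
  have hW : ∀ (W : fixS B) U, Φ ((W : OG N) * U)
      = ∑ σ, gw β ev U σ * app (W : OG N) (app U (spin σ)) k ^ 4 := by
    intro W U
    simp only [hΦ, gw, app_mul, eng_fix β hB W.2]
  have hb : ∀ U, avgS B Φ U ≤ 3 * (N : ℝ) ^ 2 / (B.card : ℝ) ^ 2 := by
    intro U
    simp only [avgS, hW]
    have hi : ∀ σ, Integrable (fun W : fixS B => app (W : OG N) (app U (spin σ)) k ^ 4)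
        (haarP (fixS B)) := fun σ => integrable_of_continuous
      (((continuous_apply k).comp ((continuous_app _).comp continuous_subtype_val)).fun_pow 4)
    rw [integral_finsetSum _ fun σ _ => (hi σ).const_mul _]
    simp only [integral_const_mul]
    calc _ ≤ ∑ σ, gw β ev U σ * (3 * (N : ℝ) ^ 2 / (B.card : ℝ) ^ 2) := by
          refine Finset.sum_le_sum fun σ _ => mul_le_mul_of_nonneg_left ?_ (gib_nonneg _ _)
          refine (mom4_le hkB (app U (spin σ))).trans ?_
          gcongr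
          refine (Finset.sum_le_univ_sum_of_nonneg fun i => sq_nonneg _).trans_eq (spin_sq U σ)
      _ = _ := by rw [← Finset.sum_mul, show ∑ σ, gw β ev U σ = 1 from sum_gib _, one_mul]
  refine (integral_mono (integrable_of_continuous (continuous_avgS hΦc)) (integrable_const _)
    hb).trans (le_of_eq ?_)
  simp

lemma jump_int_le {β : ℝ} (hβ : 0 ≤ β) {ev : Fin N → ℝ} {C : ℝ} (hC : ∀ i, |ev i| ≤ C)
    (hC0 : 0 ≤ C) (k : Fin N) (V : OG N) :
    ∫ U, jump β ev k V U ∂(haarP (OG N))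
      ≤ 2 * (1 / (N : ℝ)) ^ 2 * ∫ U, ∑ σ, gw β ev U σ * dom C β ev k V (app U (spin σ))
        ∂(haarP (OG N)) := by
  set n := 1 / (N : ℝ) with hn
  have hdc := continuous_domg C β ev k
  set R := refl (hv k (row k V)) with hR
  have c1 := continuous_dsq β ev R
  have c2 : Continuous fun U => dsq β ev R (R * U) := c1.comp (continuous_const_mul R)
  calc ∫ U, jump β ev k V U ∂(haarP (OG N))
      ≤ ∫ U, n ^ 2 * (dsq β ev R U + dsq β ev R (R * U)) ∂(haarP (OG N)) :=
        integral_mono (integrable_of_continuous (((continuous_pr β ev).comp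
          (continuous_const_mul R)).sub (continuous_pr β ev) |>.pow 2))
          (((integrable_of_continuous c1).fun_add (integrable_of_continuous c2)).const_mul _)
          fun U => sq_pr_diff β ev (refl_mul_self _) U
    _ = 2 * n ^ 2 * ∫ U, dsq β ev R U ∂(haarP (OG N)) := by
        rw [integral_const_mul, integral_add (integrable_of_continuous c1)
          (integrable_of_continuous c2),
          integral_mul_left_eq_self (μ := haarP (OG N)) (dsq β ev R) R]
        ring
    _ ≤ _ := mul_le_mul_of_nonneg_left (integral_mono (integrable_of_continuous c1)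
        (integrable_of_continuous (hdc.comp (continuous_const.prodMk continuous_id)))
        fun U => dsq_le β hC hC0 k V U) (by positivity)

lemma inner_le (β : ℝ) {ev : Fin N → ℝ} {C : ℝ} (hC : ∀ i, |ev i| ≤ C) (hC0 : 0 ≤ C)
    {S : Finset (Fin N)} {k : Fin N} (hk : k ∈ S) {k0 : ℝ} (hk0 : 0 < k0) (hS : k0 ≤ S.card)
    (U : OG N) :
    ∫ V : fixS S, ∑ σ, gw β ev U σ * dom C β ev k (V : OG N) (app U (spin σ)) ∂(haarP (fixS S))
      ≤ 4 * β ^ 2 * ((C ^ 4 + (1 + 2 * C) ^ 2) * ∑ σ, gw β ev U σ * app U (spin σ) k ^ 4)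
        + 4 * β ^ 2 * (((1 + 2 * C) ^ 2 + C ^ 4) * (3 * (N : ℝ) ^ 2 / k0 ^ 2)) := by
  set L := (1 + 2 * C) ^ 2 with hL
  have hp : ∀ w : Fin N → ℝ, Integrable (fun V : fixS S => app (V : OG N) w k ^ 4)
      (haarP (fixS S)) := fun w => integrable_of_continuous
    (((continuous_apply k).comp ((continuous_app w).comp continuous_subtype_val)).fun_pow 4)
  have hi : ∀ σ, Integrable (fun V : fixS S => dom C β ev k (V : OG N) (app U (spin σ)))
      (haarP (fixS S)) := fun σ =>
    (((integrable_const _).fun_add ((hp _).const_mul _)).fun_add (hp _)).const_mul _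
  rw [integral_finsetSum _ fun σ _ => (hi σ).const_mul _]
  calc _ ≤ ∑ σ, gw β ev U σ * (4 * β ^ 2 * ((C ^ 4 + L) * app U (spin σ) k ^ 4)
        + 4 * β ^ 2 * ((L + C ^ 4) * (3 * (N : ℝ) ^ 2 / k0 ^ 2))) := by
        refine Finset.sum_le_sum fun σ _ => ?_
        rw [integral_const_mul]
        refine mul_le_mul_of_nonneg_left ?_ (gib_nonneg _ _)
        set v := app U (spin σ)
        simp only [dom, ← hL]
        rw [integral_const_mul, integral_add ((integrable_const _).fun_add ((hp v).const_mul _))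
          (hp _), integral_add (integrable_const _) ((hp v).const_mul _), integral_const_mul,
          integral_const, probReal_univ, one_smul, ← mul_add (4 * β ^ 2)]
        refine mul_le_mul_of_nonneg_left ?_ (by positivity)
        simp only [integral_const_mul]
        have hv2 : ∑ i ∈ S, v i ^ 2 ≤ N :=
          (Finset.sum_le_univ_sum_of_nonneg fun i => sq_nonneg _).trans_eq (spin_sq U σ)
        have a : ∫ V : fixS S, app (V : OG N) v k ^ 4 ∂(haarP (fixS S))
            ≤ 3 * (N : ℝ) ^ 2 / k0 ^ 2 := (mom4_le hk v).trans (by gcongr)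
        have b : ∫ V : fixS S, app (V : OG N) (fun i => ev i * v i) k ^ 4 ∂(haarP (fixS S))
            ≤ C ^ 4 * (3 * (N : ℝ) ^ 2 / k0 ^ 2) := by
          refine (mom4_le hk _).trans ?_
          have : ∑ i ∈ S, (ev i * v i) ^ 2 ≤ C ^ 2 * N := by
            calc ∑ i ∈ S, (ev i * v i) ^ 2 ≤ ∑ i ∈ S, C ^ 2 * v i ^ 2 := by
                  refine Finset.sum_le_sum fun i _ => ?_
                  rw [mul_pow, ← sq_abs (ev i)]
                  gcongr
                  exact hC i
              _ ≤ _ := by rw [← Finset.mul_sum]; gcongr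
          calc 3 * (∑ i ∈ S, (ev i * v i) ^ 2) ^ 2 / (S.card : ℝ) ^ 2
              ≤ 3 * (C ^ 2 * (N : ℝ)) ^ 2 / k0 ^ 2 := by gcongr
            _ = _ := by ring
        linarith [mul_le_mul_of_nonneg_left a (show 0 ≤ L from sq_nonneg _)]
    _ = _ := by
        simp only [mul_add, Finset.sum_add_distrib, ← Finset.sum_mul,
          show ∑ σ, gw β ev U σ = 1 from sum_gib _, one_mul, Finset.mul_sum]
        congr 1
        exact Finset.sum_congr rfl fun σ _ => by ring

lemma continuous_integral {A B : Type} [TopologicalSpace A] [FirstCountableTopology A]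
    [LocallyCompactSpace A] [TopologicalSpace B] [CompactSpace B] [SecondCountableTopology B]
    [MeasurableSpace B] [BorelSpace B] (μ : Measure B) [IsFiniteMeasure μ] {f : A → B → ℝ}
    (hf : Continuous (Function.uncurry f)) : Continuous fun x => ∫ y, f x y ∂μ := by
  simpa [setIntegral_univ] using continuous_parametric_integral_of_continuous (μ := μ) hf
    isCompact_univ

/-- The jumps are small. -/
lemma jump_le {β : ℝ} (hβ : 0 ≤ β) {ev : Fin N → ℝ} {C : ℝ} (hC : ∀ i, |ev i| ≤ C) (hC0 : 0 ≤ C)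
    {S : Finset (Fin N)} {k : Fin N} (hk : k ∈ S) {k0 : ℝ} (hk0 : 0 < k0)
    (hS : k0 ≤ S.card) {B : Finset (Fin N)} (hkB : k ∈ B) (hB : ∀ i ∈ B, ev i = ev k)
    (hBc : k0 ≤ B.card) :
    ∫ V : fixS S, ∫ U, jump β ev k (V : OG N) U ∂(haarP (OG N)) ∂(haarP (fixS S))
      ≤ 48 * β ^ 2 * (C ^ 4 + (1 + 2 * C) ^ 2) / k0 ^ 2 := by
  set L := (1 + 2 * C) ^ 2 with hL
  set n := 1 / (N : ℝ) with hn
  have hdc := continuous_domg C β ev k
  have hpt := fun V : fixS S => jump_int_le hβ hC hC0 k (V : OG N)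
  have hFc : Continuous (Function.uncurry fun (V : fixS S) (U : OG N) =>
      ∑ σ, gw β ev U σ * dom C β ev k (V : OG N) (app U (spin σ))) :=
    (hdc.comp ((continuous_subtype_val.comp continuous_fst).prodMk
      (continuous_snd (X := fixS S) (Y := OG N)))).congr fun p => by
        simp only [Function.comp_apply, Function.uncurry_def]
  refine (integral_mono_of_nonneg
    (Filter.Eventually.of_forall fun V => integral_nonneg fun U => sq_nonneg _)
    ((integrable_of_continuous (G := fixS S) ?_).const_mul _)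
    (Filter.Eventually.of_forall hpt)).trans ?_
  · exact continuous_integral _ hFc
  rw [integral_const_mul, swapC hFc]
  have hin := fun U => inner_le β hC hC0 hk hk0 hS U
  have iΦ : Integrable (fun U => ∑ σ, gw β ev U σ * app U (spin σ) k ^ 4) (haarP (OG N)) :=
    integrable_of_continuous (continuous_finsetSum _ fun σ _ =>
      (continuous_gw β ev σ).mul (((continuous_apply k).comp (continuous_app _)).pow 4))
  refine (mul_le_mul_of_nonneg_left (integral_mono (integrable_of_continuous ?_)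
    (((iΦ.const_mul _).const_mul _).fun_add (integrable_const _)) hin) (by positivity)).trans ?_
  · exact continuous_integral (A := OG N) (haarP (fixS S))
      (f := fun (U : OG N) (V : fixS S) =>
        ∑ σ, gw β ev U σ * dom C β ev k (V : OG N) (app U (spin σ)))
      ((hdc.comp ((continuous_subtype_val.comp (continuous_snd (X := OG N) (Y := fixS S))).prodMk
        continuous_fst)).congr fun p => by simp only [Function.comp_apply, Function.uncurry_def])
  rw [integral_add ((iΦ.const_mul _).const_mul _) (integrable_const _), integral_const_mul,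
    integral_const_mul, integral_const, probReal_univ, one_smul]
  have h4 : ∫ U, ∑ σ, gw β ev U σ * app U (spin σ) k ^ 4 ∂(haarP (OG N))
      ≤ 3 * (N : ℝ) ^ 2 / k0 ^ 2 := (gibbs_four β hkB hB).trans (by gcongr)
  have hN : (0 : ℝ) < N := by
    exact_mod_cast Nat.lt_of_le_of_lt (Nat.zero_le _) k.isLt
  calc 2 * n ^ 2 * (4 * β ^ 2 * ((C ^ 4 + L) * ∫ U, ∑ σ, gw β ev U σ * app U (spin σ) k ^ 4
        ∂(haarP (OG N))) + 4 * β ^ 2 * ((L + C ^ 4) * (3 * (N : ℝ) ^ 2 / k0 ^ 2)))
      ≤ 2 * n ^ 2 * (4 * β ^ 2 * ((C ^ 4 + L) * (3 * (N : ℝ) ^ 2 / k0 ^ 2))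
        + 4 * β ^ 2 * ((L + C ^ 4) * (3 * (N : ℝ) ^ 2 / k0 ^ 2))) := by
        gcongr
    _ = _ := by rw [hn]; field_simp; ring

/-- The variance of the pressure for a spectrum with multiplicities at least `k0`. -/
theorem variance_le {β : ℝ} (hβ : 0 ≤ β) {ev : Fin N → ℝ} {C : ℝ} (hC : ∀ i, |ev i| ≤ C)
    (hC0 : 0 ≤ C) {k0 : ℕ} (hk0 : 0 < k0) {K : ℕ} (hKN : K + k0 ≤ N)
    (hlast : ∀ i j : Fin N, K ≤ i.val → K ≤ j.val → ev i = ev j)
    (hmult : ∀ i : Fin N, k0 ≤ (Finset.univ.filter fun j => ev j = ev i).card) :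
    ∫ U, (pr β ev U - mean β ev) ^ 2 ∂(haarP (OG N))
      ≤ 24 * β ^ 2 * (C ^ 4 + (1 + 2 * C) ^ 2) * N / (k0 : ℝ) ^ 2 := by
  set D := 48 * β ^ 2 * (C ^ 4 + (1 + 2 * C) ^ 2) / (k0 : ℝ) ^ 2 with hD
  have hfix : ∀ W ∈ fixS (Sk K : Finset (Fin N)), ∀ U, pr β ev (W * U) = pr β ev U := by
    intro W hW U
    simp only [pr_eq, app_mul,
      eng_fix β (c := ev ⟨K, by omega⟩) (fun i hi => hlast i _ (mem_Sk.1 hi) le_rfl) hW]
  have hsum := variance_eq (continuous_pr β ev) hfix
  rw [mean, hsum]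
  have hb : ∀ k ∈ Finset.range K, ∫ U, ∫ V : fixS (Sk k : Finset (Fin N)),
      (avgS (Sk (k + 1)) (pr β ev) ((V : OG N) * U) - avgS (Sk (k + 1)) (pr β ev) U) ^ 2
        ∂(haarP (fixS (Sk k : Finset (Fin N)))) ∂(haarP (OG N)) ≤ D := by
    intro k hk
    have hkN : k < N := by have := Finset.mem_range.1 hk; omega
    set k' : Fin N := ⟨k, hkN⟩
    have hS : ∀ i, i ∈ (Sk (k + 1) : Finset (Fin N)) ↔ i ∈ Sk k ∧ i ≠ k' := by
      intro i
      simp only [mem_Sk, k', ne_eq, Fin.ext_iff]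
      omega
    refine (increment_le hβ hC hC0 (mem_Sk.2 le_rfl : k' ∈ Sk k) hS).trans ?_
    refine jump_le hβ hC hC0 (mem_Sk.2 le_rfl : k' ∈ Sk k) (by exact_mod_cast hk0) ?_
      (B := Finset.univ.filter fun j => ev j = ev k') (by simp) (fun i hi => by simpa using hi)
      (by exact_mod_cast hmult k')
    have := card_Sk (N := N) k
    have := Finset.mem_range.1 hk
    exact_mod_cast (show k0 ≤ (Sk k : Finset (Fin N)).card by omega)
  refine (div_le_div_of_nonneg_right (Finset.sum_le_sum hb) (by norm_num)).trans ?_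
  rw [Finset.sum_const, Finset.card_range, nsmul_eq_mul]
  calc (K : ℝ) * D / 2 ≤ (N : ℝ) * D / 2 := by
        refine div_le_div_of_nonneg_right (mul_le_mul_of_nonneg_right ?_ ?_) (by norm_num)
        · exact_mod_cast (show K ≤ N by omega)
        · rw [hD]; positivity
    _ = _ := by rw [hD]; ring

end Vale.Agent.P166
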